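import Vale.Agent.Lib.P243.Abs.Base

/-!
# Area of a base computed through a linear map with rows `a`, `b`

If `L = rowMap a b : ℝ³ → ℝ²` is surjective with kernel spanned by `w`, then `L` restricted to the
plane orthogonal to `w` multiplies areas by `sqrt (gram a b)`.

Proof.  By `volume_preimage_eq` (file Plane) there is `c > 0` with
`volume (e ⁻¹' S) = c * volume S` for every measurable `S`, where `e = planeEquiv ..` is `L`
restricted to `P = Plane (‖w‖⁻¹ • w)`.  Let `f` be an orthonormal basis of `P` (the dimension of `P`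
is 2: `Submodule.finrank_orthogonal_span_singleton`; use `stdOrthonormalBasis` and `reindex`).
Take `S = e '' (parallelepiped f)`: `volume (parallelepiped f) = 1`
(`OrthonormalBasis.volume_parallelepiped`) and `e '' parallelepiped f` is the parallelepiped of
`e (f 0), e (f 1)` in `Fin 2 → ℝ`, of volume `|det|` (`Real.volume_parallelepiped..` or
`Measure.addHaar_parallelepiped`/`addHaar_image_linearMap`); and
`det ^ 2 = gram a b` because, `A, B` being the vectors `a, b` seen in `E3` (both orthogonal to `w`,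
hence in `P`), `det = <A,f0><B,f1> - <A,f1><B,f0>` and
`<A,A> = <A,f0>^2 + <A,f1>^2`, `<B,B> = ..`, `<A,B> = <A,f0><B,f0> + <A,f1><B,f1>`
(`OrthonormalBasis.sum_inner_mul_inner` in `P`).
-/

open MeasureTheory
open scoped BigOperators ENNReal

namespace Vale.Agent.P243

/-- the vector with coordinates `a` in `E3` -/
noncomputable def areaVec (a : Fin 3 → ℝ) : E3 := WithLp.toLp 2 a

theorem area_inner_vec (a : Fin 3 → ℝ) (x : E3) :
    inner ℝ (areaVec a) x = a 0 * x 0 + a 1 * x 1 + a 2 * x 2 := by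
  rw [PiLp.inner_apply, Fin.sum_univ_three]
  simp only [areaVec, RCLike.inner_apply, conj_trivial]
  ring

theorem area_vec_mem (a : Fin 3 → ℝ) (w : E3) (h : inner ℝ (areaVec a) w = 0) :
    areaVec a ∈ Plane (‖w‖⁻¹ • w) := by
  rw [Submodule.mem_orthogonal_singleton_iff_inner_left, inner_smul_right, h, mul_zero]

theorem area_volume_parallelepiped (v : Fin 2 → (Fin 2 → ℝ)) :
    volume (parallelepiped v) = ENNReal.ofReal |v 0 0 * v 1 1 - v 1 0 * v 0 1| := by
  have h1 := Measure.addHaar_parallelepiped (Pi.basisFun ℝ (Fin 2)) v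
  have h2 : (Pi.basisFun ℝ (Fin 2)).addHaar = (volume : Measure (Fin 2 → ℝ)) := by
    rw [Module.Basis.addHaar_def, Module.Basis.parallelepiped_basisFun]
    exact addHaarMeasure_eq_volume_pi (Fin 2)
  rw [h2] at h1
  rw [h1]
  congr 2
  rw [Module.Basis.det_apply, Matrix.det_fin_two]
  simp [Module.Basis.toMatrix_apply]

theorem area_finrank (w : E3) (hw : w ≠ 0) :
    Module.finrank ℝ (Plane (‖w‖⁻¹ • w)) = 2 := by
  have hf : Fact (Module.finrank ℝ E3 = 2 + 1) := ⟨by simp⟩
  apply Submodule.finrank_orthogonal_span_singleton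
  exact smul_ne_zero (inv_ne_zero (norm_ne_zero_iff.2 hw)) hw

theorem area_det_sq (a b : Fin 3 → ℝ) (w : E3) (ha : inner ℝ (areaVec a) w = 0)
    (hb : inner ℝ (areaVec b) w = 0)
    (f : OrthonormalBasis (Fin 2) ℝ (Plane (‖w‖⁻¹ • w))) :
    (inner ℝ (areaVec a) (f 0 : E3) * inner ℝ (areaVec b) (f 1 : E3) -
      inner ℝ (areaVec a) (f 1 : E3) * inner ℝ (areaVec b) (f 0 : E3)) ^ 2 = gram a b := by
  have key : ∀ x y : Fin 3 → ℝ, inner ℝ (areaVec x) w = 0 → inner ℝ (areaVec y) w = 0 →
      inner ℝ (areaVec x) (f 0 : E3) * inner ℝ (areaVec y) (f 0 : E3) +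
        inner ℝ (areaVec x) (f 1 : E3) * inner ℝ (areaVec y) (f 1 : E3) =
      x 0 * y 0 + x 1 * y 1 + x 2 * y 2 := by
    intro x y hx hy
    have h := f.sum_inner_mul_inner (⟨areaVec x, area_vec_mem x w hx⟩ : Plane (‖w‖⁻¹ • w))
      (⟨areaVec y, area_vec_mem y w hy⟩ : Plane (‖w‖⁻¹ • w))
    rw [Fin.sum_univ_two] at h
    simp only [Submodule.coe_inner] at h
    rw [real_inner_comm (areaVec y) (f 0 : E3), real_inner_comm (areaVec y) (f 1 : E3),
      area_inner_vec x (areaVec y)] at h
    exact h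
  have h1 := key a a ha ha
  have h2 := key b b hb hb
  have h3 := key a b ha hb
  unfold gram
  have e1 : a 0 ^ 2 + a 1 ^ 2 + a 2 ^ 2 = a 0 * a 0 + a 1 * a 1 + a 2 * a 2 := by ring
  have e2 : b 0 ^ 2 + b 1 ^ 2 + b 2 ^ 2 = b 0 * b 0 + b 1 * b 1 + b 2 * b 2 := by ring
  rw [e1, e2, ← h1, ← h2, ← h3]
  ring

theorem volume_preimage_rowMap (a b : Fin 3 → ℝ) (w : E3) (hw : w ≠ 0)
    (hLw : rowMap a b w = 0) (hker : ∀ x, rowMap a b x = 0 → ∃ c : ℝ, x = c • w)
    (hsurj : Function.Surjective (rowMap a b)) (S : Set (Fin 2 → ℝ)) (hS : MeasurableSet S) :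
    (volume (planeEquiv (rowMap a b) w hw hLw hker hsurj ⁻¹' S)).toReal =
      (volume S).toReal / Real.sqrt (gram a b) := by
  obtain ⟨c, hc, hvol⟩ := volume_preimage_eq (rowMap a b) w hw hLw hker hsurj
  have ha : inner ℝ (areaVec a) w = 0 := by
    rw [area_inner_vec]
    exact congrFun hLw 0
  have hb : inner ℝ (areaVec b) w = 0 := by
    rw [area_inner_vec]
    exact congrFun hLw 1
  let f : OrthonormalBasis (Fin 2) ℝ (Plane (‖w‖⁻¹ • w)) :=
    (stdOrthonormalBasis ℝ (Plane (‖w‖⁻¹ • w))).reindex (finCongr (area_finrank w hw))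
  have hdet := area_det_sq a b w ha hb f
  set e := planeEquiv (rowMap a b) w hw hLw hker hsurj with he
  set d : ℝ := inner ℝ (areaVec a) (f 0 : E3) * inner ℝ (areaVec b) (f 1 : E3) -
      inner ℝ (areaVec a) (f 1 : E3) * inner ℝ (areaVec b) (f 0 : E3) with hd
  have hv0 : ∀ i, e (f i) 0 = inner ℝ (areaVec a) (f i : E3) := by
    intro i
    rw [area_inner_vec]
    rfl
  have hv1 : ∀ i, e (f i) 1 = inner ℝ (areaVec b) (f i : E3) := by
    intro i
    rw [area_inner_vec]
    rfl
  have himg : e '' parallelepiped f = parallelepiped (fun i => e (f i)) :=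
    image_parallelepiped (e : Plane (‖w‖⁻¹ • w) →ₗ[ℝ] (Fin 2 → ℝ)) f
  have hpre : e ⁻¹' (parallelepiped (fun i => e (f i))) = parallelepiped f := by
    rw [← himg, Set.preimage_image_eq _ e.injective]
  have hmeas : MeasurableSet (parallelepiped (fun i => e (f i))) := by
    rw [← himg]
    have hcomp : IsCompact (parallelepiped f) := by
      rw [parallelepiped]
      exact isCompact_Icc.image (by fun_prop)
    exact (hcomp.image e.continuous).measurableSet
  have h1 := hvol _ hmeas
  rw [hpre, OrthonormalBasis.volume_parallelepiped, area_volume_parallelepiped,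
    ENNReal.toReal_ofReal (abs_nonneg _)] at h1
  rw [hv0, hv0, hv1, hv1] at h1
  have h2 : c * |d| = 1 := by
    rw [hd]
    rw [ENNReal.toReal_one] at h1
    exact h1.symm
  have h3 : Real.sqrt (gram a b) = |d| := by
    rw [← hdet, Real.sqrt_sq_eq_abs]
  have h4 : |d| ≠ 0 := by
    intro h
    rw [h, mul_zero] at h2
    exact zero_ne_one h2
  rw [hvol S hS, h3, eq_div_iff h4]
  calc c * (volume S).toReal * |d| = (c * |d|) * (volume S).toReal := by ring
    _ = (volume S).toReal := by rw [h2, one_mul]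

/-- area of the base of `mkCyl` -/
theorem area_mkCyl (a b : Fin 3 → ℝ) (w : E3) (hw : w ≠ 0)
    (hLw : rowMap a b w = 0) (hker : ∀ x, rowMap a b x = 0 → ∃ c : ℝ, x = c • w)
    (hsurj : Function.Surjective (rowMap a b)) (D : Set (Fin 2 → ℝ)) (hD : IsCompact D) :
    (mkCyl (rowMap a b) w hw hLw hker hsurj D hD).area =
      (volume D).toReal / Real.sqrt (gram a b) :=
  volume_preimage_rowMap a b w hw hLw hker hsurj D hD.measurableSet

/-- area of a shadow -/
theorem shadow_rowMap (a b : Fin 3 → ℝ) (w : E3) (hw : w ≠ 0)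
    (hLw : rowMap a b w = 0) (hker : ∀ x, rowMap a b x = 0 → ∃ c : ℝ, x = c • w)
    (hsurj : Function.Surjective (rowMap a b)) (K : Set E3) (hK : IsCompact K) :
    shadow (‖w‖⁻¹ • w) K =
      (volume (rowMap a b '' K)).toReal / Real.sqrt (gram a b) := by
  have h : shadow (‖w‖⁻¹ • w) K =
      (volume (planeEquiv (rowMap a b) w hw hLw hker hsurj ⁻¹' (rowMap a b '' K))).toReal := by
    show (volume (projPlane (‖w‖⁻¹ • w) '' K)).toReal = _
    rw [proj_image (rowMap a b) w hw hLw hker hsurj K]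
  rw [h]
  exact volume_preimage_rowMap a b w hw hLw hker hsurj _
    (hK.image (LinearMap.continuous_of_finiteDimensional _)).measurableSet

end Vale.Agent.P243
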