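import Vale.Agent.Lib.P243.Plane

/-!
# P243, absolute form: definitions and numerical data of the two fans of cylinders
-/

open MeasureTheory
open scoped BigOperators ENNReal

namespace Vale.Agent.P243

section

variable {E : Type} [NormedAddCommGroup E] [InnerProductSpace ℝ E] [FiniteDimensional ℝ E]
  [MeasurableSpace E] [BorelSpace E]

/-- the smallest area of an orthogonal projection of `K` onto a plane -/
noncomputable def Amin (K : Set E) : ℝ := sInf {a : ℝ | ∃ u : E, ‖u‖ = 1 ∧ a = shadow u K}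

/-- total base area of a finite family of cylinders -/
noncomputable def totalArea {m : ℕ} (C : Fin m → Cylinder E) : ℝ := ∑ i, (C i).area

end

/-- the constant `c_3`: infimum of the total base area divided by `Amin K` over all convex bodies
in `ℝ³` and all finite cylinder coverings -/
noncomputable def c3 : ℝ :=
  sInf {R : ℝ | ∃ K : Set E3, IsConvexBody K ∧ ∃ (m : ℕ) (C : Fin m → Cylinder E3),
    K ⊆ ⋃ i, (C i).carrier ∧ R = totalArea C / Amin K}

/-- the regular tetrahedron with vertices `(4,4,-4)`, `(4,-4,4)`, `(-4,4,4)`, `(-4,-4,-4)` -/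
def tet : Set E3 :=
  {y | y 0 - y 1 - y 2 ≤ 4 ∧ -y 0 + y 1 - y 2 ≤ 4 ∧ y 0 + y 1 + y 2 ≤ 4 ∧ -y 0 - y 1 + y 2 ≤ 4}

/-- the linear map `ℝ³ → ℝ²` with rows `a` and `b` -/
noncomputable def rowMap (a b : Fin 3 → ℝ) : E3 →ₗ[ℝ] (Fin 2 → ℝ) where
  toFun y := ![a 0 * y 0 + a 1 * y 1 + a 2 * y 2, b 0 * y 0 + b 1 * y 1 + b 2 * y 2]
  map_add' x y := by
    funext i
    fin_cases i <;> simp <;> ring
  map_smul' c x := by
    funext i
    fin_cases i <;> simp <;> ring

theorem rowMap_apply (a b : Fin 3 → ℝ) (y : E3) :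
    rowMap a b y = ![a 0 * y 0 + a 1 * y 1 + a 2 * y 2, b 0 * y 0 + b 1 * y 1 + b 2 * y 2] := rfl

/-- Gram determinant of two vectors -/
def gram (a b : Fin 3 → ℝ) : ℝ :=
  (a 0 ^ 2 + a 1 ^ 2 + a 2 ^ 2) * (b 0 ^ 2 + b 1 ^ 2 + b 2 ^ 2) -
    (a 0 * b 0 + a 1 * b 1 + a 2 * b 2) ^ 2

/-! ### numerical data: `N` sectors, `h = 1 / N` -/

/-- breakpoints `τ_k = -1 + 2 k / N` -/
noncomputable def tau (N k : ℕ) : ℝ := (2 * (k : ℝ) - N) / N

/-- midpoints -/
noncomputable def mu (N k : ℕ) : ℝ := (2 * (k : ℝ) + 1 - N) / N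

/-- second slope of the direction of the cylinder with midpoint `m` -/
noncomputable def nu (m : ℝ) : ℝ := m / 5

/-- first slope of the direction of the cylinder with midpoint `m`; `h` is half the width -/
noncomputable def om (h m : ℝ) : ℝ := -(1 + m ^ 2 - h ^ 2) / 10

/-- the radial function is `4 * (1 + ee (m ^ 2) + h / 2)` -/
noncomputable def ee (u : ℝ) : ℝ := (u + u ^ 2) / 50 + 11 * u ^ 4 / 10000

/-- normalised radius -/
noncomputable def rho (h m : ℝ) : ℝ := 1 + ee (m ^ 2) + h / 2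

end Vale.Agent.P243
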