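import Vale.Agent.Lib.P243.Abs.Poly

/-!
# The covering

Coordinates `w, z, s` with `|w| ≤ 4 + s`, `|z| ≤ 4 - s`.  For a sector `k` put
`b1 = w + om z`, `b2 = s + 4 - nu z`.  The function
`F_k = w - τ_k (s+4) - z G_k`, `G_k = (1 - τ_k²)/10`, satisfies `F_0 ≥ 0 ≥ F_N`, so there is `k < N`
with `F_k ≥ 0 ≥ F_{k+1}`; and `F_k = b1 - τ_k b2`, `F_{k+1} = b1 - τ_{k+1} b2` for the `b` of the
sector `k` (because `om = -(1+τ_kτ_{k+1})/10`, `nu = (τ_k+τ_{k+1})/10`).  Hence `0 ≤ b2`.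
The same for the point `(z, -w, -s)`, sector `j`, `b1' = z - om' w`, `b2' = 4 - s + nu' w`.
If `b2 > 4 rho` and `b2' > 4 rho'` then `b2, b2' > 0`, put `σ = b1/b2 ∈ [τ_k,τ_{k+1}]`,
`σ' = b1'/b2'`; the identity (ring)
`(V + σ V1) b2 + (V + σ' W) b2' = 8 V`, `V = 1 + om om'`, `V1 = nu om' - nu'`, `W = nu + om nu'`
(that is `V b2 + V1 b1 + V b2' + W b1' = 8 V`)
contradicts `poly_main` and `coef_pos`.
-/

namespace Vale.Agent.P243

/-- the point lies in the triangle of sector `k` -/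
def InSector (N k : ℕ) (w z s : ℝ) : Prop :=
  tau N k * (s + 4 - nu (mu N k) * z) ≤ w + om (1 / N) (mu N k) * z ∧
  w + om (1 / N) (mu N k) * z ≤ tau N (k + 1) * (s + 4 - nu (mu N k) * z) ∧
  s + 4 - nu (mu N k) * z ≤ 4 * rho (1 / N) (mu N k)

private theorem cover_sign (f : ℕ → ℝ) (h0 : 0 ≤ f 0) :
    ∀ N : ℕ, 0 < N → f N ≤ 0 → ∃ k < N, 0 ≤ f k ∧ f (k + 1) ≤ 0 := by
  intro N
  induction N with
  | zero => intro h; exact absurd h (lt_irrefl 0)
  | succ n ih =>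
    intro _ hn
    by_cases h : 0 ≤ f n
    · exact ⟨n, Nat.lt_succ_self n, h, hn⟩
    · have hlt : f n < 0 := not_le.mp h
      have hn0 : 0 < n := by
        rcases Nat.eq_zero_or_pos n with h1 | h1
        · rw [h1] at hlt
          exact absurd h0 (not_le.mpr hlt)
        · exact h1
      obtain ⟨k, hk, h2⟩ := ih hn0 hlt.le
      exact ⟨k, hk.trans (Nat.lt_succ_self n), h2⟩

private theorem cover_tau (N k : ℕ) (hN : 0 < N) : tau N k = mu N k - 1 / N := by
  have h : (N : ℝ) ≠ 0 := by exact_mod_cast hN.ne'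
  unfold tau mu
  field_simp
  ring

private theorem cover_tau_succ (N k : ℕ) (hN : 0 < N) : tau N (k + 1) = mu N k + 1 / N := by
  have h : (N : ℝ) ≠ 0 := by exact_mod_cast hN.ne'
  unfold tau mu
  push_cast
  field_simp
  ring

/-- a sector for a point, without the bound on the radius -/
private theorem cover_sector (N : ℕ) (hN : 0 < N) (w z s : ℝ) (h1 : |w| ≤ 4 + s) :
    ∃ k < N, tau N k * (s + 4 - nu (mu N k) * z) ≤ w + om (1 / N) (mu N k) * z ∧
      w + om (1 / N) (mu N k) * z ≤ tau N (k + 1) * (s + 4 - nu (mu N k) * z) := by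
  have hNr : (0 : ℝ) < N := by exact_mod_cast hN
  obtain ⟨k, hk, h3, h4⟩ := cover_sign
    (fun k => w - tau N k * (s + 4) - z * ((1 - tau N k ^ 2) / 10)) (by
      have h : tau N 0 = -1 := by
        unfold tau
        push_cast
        field_simp
        ring
      show 0 ≤ w - tau N 0 * (s + 4) - z * ((1 - tau N 0 ^ 2) / 10)
      rw [h]
      have := (abs_le.mp h1).1
      nlinarith) N hN (by
      have h : tau N N = 1 := by
        unfold tau
        field_simp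
        ring
      show w - tau N N * (s + 4) - z * ((1 - tau N N ^ 2) / 10) ≤ 0
      rw [h]
      have := (abs_le.mp h1).2
      nlinarith)
  refine ⟨k, hk, ?_, ?_⟩
  · have e := cover_tau N k hN
    have e2 : om (1 / N) (mu N k) * z + tau N k * (nu (mu N k) * z) =
        -(z * ((1 - tau N k ^ 2) / 10)) := by
      rw [e]
      unfold om nu
      ring
    have h3' : 0 ≤ w - tau N k * (s + 4) - z * ((1 - tau N k ^ 2) / 10) := h3
    linarith
  · have e := cover_tau_succ N k hN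
    have e2 : om (1 / N) (mu N k) * z + tau N (k + 1) * (nu (mu N k) * z) =
        -(z * ((1 - tau N (k + 1) ^ 2) / 10)) := by
      rw [e]
      unfold om nu
      ring
    have h4' : w - tau N (k + 1) * (s + 4) - z * ((1 - tau N (k + 1) ^ 2) / 10) ≤ 0 := h4
    linarith

/-- the quotient lies in the interval -/
private theorem cover_quot (N k : ℕ) (hN : 0 < N) (hk : k < N) {b1 b2 : ℝ} (hb : 0 < b2)
    (h1 : tau N k * b2 ≤ b1) (h2 : b1 ≤ tau N (k + 1) * b2) :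
    |b1 / b2 - mu N k| ≤ 1 / N ∧ |b1 / b2| ≤ 1 ∧ |mu N k| ≤ 1 := by
  have hNr : (0 : ℝ) < N := by exact_mod_cast hN
  have hkr : (k : ℝ) + 1 ≤ N := by exact_mod_cast hk
  have hk0 : (0 : ℝ) ≤ k := Nat.cast_nonneg k
  have e1 := cover_tau N k hN
  have e2 := cover_tau_succ N k hN
  have h3 : tau N k ≤ b1 / b2 := (le_div_iff₀ hb).mpr h1
  have h4 : b1 / b2 ≤ tau N (k + 1) := (div_le_iff₀ hb).mpr h2
  have h5 : -1 ≤ tau N k := by
    unfold tau
    rw [le_div_iff₀ hNr]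
    linarith
  have h6 : tau N (k + 1) ≤ 1 := by
    unfold tau
    rw [div_le_iff₀ hNr]
    push_cast
    linarith
  have h7 : (0 : ℝ) < 1 / N := by positivity
  refine ⟨abs_le.mpr ⟨by linarith, by linarith⟩, abs_le.mpr ⟨by linarith, by linarith⟩,
    abs_le.mpr ⟨by linarith, by linarith⟩⟩

theorem cover (N : ℕ) (hN : 1000 ≤ N) (w z s : ℝ) (h1 : |w| ≤ 4 + s) (h2 : |z| ≤ 4 - s) :
    ∃ k < N, InSector N k w z s ∨ InSector N k z (-w) (-s) := by
  have hN0 : 0 < N := lt_of_lt_of_le (by norm_num) hN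
  have hNr : (1000 : ℝ) ≤ N := by exact_mod_cast hN
  obtain ⟨k, hk, h3, h4⟩ := cover_sector N hN0 w z s h1
  obtain ⟨j, hj, h5, h6⟩ := cover_sector N hN0 z (-w) (-s) (by linarith)
  by_cases c1 : s + 4 - nu (mu N k) * z ≤ 4 * rho (1 / N) (mu N k)
  · exact ⟨k, hk, Or.inl ⟨h3, h4, c1⟩⟩
  by_cases c2 : -s + 4 - nu (mu N j) * (-w) ≤ 4 * rho (1 / N) (mu N j)
  · exact ⟨j, hj, Or.inr ⟨h5, h6, c2⟩⟩
  exfalso
  rw [not_le] at c1 c2
  have hh : (0 : ℝ) < 1 / N := by positivity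
  have hh' : (1 : ℝ) / N ≤ 1 / 1000 := one_div_le_one_div_of_le (by norm_num) hNr
  have hrho : ∀ m : ℝ, 0 < rho (1 / N) m := by
    intro m
    unfold rho ee
    positivity
  set b2 : ℝ := s + 4 - nu (mu N k) * z with hb2
  set b1 : ℝ := w + om (1 / N) (mu N k) * z with hb1
  set b2' : ℝ := -s + 4 - nu (mu N j) * (-w) with hb2'
  set b1' : ℝ := z + om (1 / N) (mu N j) * (-w) with hb1'
  have hp : 0 < b2 := lt_trans (mul_pos (by norm_num) (hrho _)) c1
  have hp' : 0 < b2' := lt_trans (mul_pos (by norm_num) (hrho _)) c2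
  obtain ⟨q1, q2, q3⟩ := cover_quot N k hN0 hk hp h3 h4
  obtain ⟨r1, r2, r3⟩ := cover_quot N j hN0 hj hp' h5 h6
  have key := poly_main (1 / N) (mu N k) (mu N j) (b1 / b2) (b1' / b2') hh hh' q3 r3 q1 r1
  obtain ⟨P1, P2⟩ := coef_pos (1 / N) (mu N k) (mu N j) (b1 / b2) (b1' / b2') hh hh' q3 r3 q2 r2
  set V : ℝ := 1 + om (1 / N) (mu N k) * om (1 / N) (mu N j) with hV
  set V1 : ℝ := nu (mu N k) * om (1 / N) (mu N j) - nu (mu N j) with hV1
  set W : ℝ := nu (mu N k) + om (1 / N) (mu N k) * nu (mu N j) with hW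
  have id : (V + b1 / b2 * V1) * b2 + (V + b1' / b2' * W) * b2' = 8 * V := by
    have e1 : b1 / b2 * b2 = b1 := div_mul_cancel₀ b1 hp.ne'
    have e2 : b1' / b2' * b2' = b1' := div_mul_cancel₀ b1' hp'.ne'
    have e3 : (V + b1 / b2 * V1) * b2 + (V + b1' / b2' * W) * b2' =
        V * b2 + V1 * (b1 / b2 * b2) + (V * b2' + W * (b1' / b2' * b2')) := by ring
    rw [e3, e1, e2, hb1, hb2, hb1', hb2', hV, hV1, hW]
    ring
  have g1 := mul_lt_mul_of_pos_left c1 P1
  have g2 := mul_lt_mul_of_pos_left c2 P2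
  nlinarith

end Vale.Agent.P243
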