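import Vale.Agent.Lib.P243.Abs.Base

/-!
# Shadows of the regular tetrahedron: lower bound for the area of a linear image

`shMap α β γ` has kernel spanned by `(α, β, γ)`.  The images of the vertices
`V1 = (4,-4,4)`, `V2 = (-4,4,4)`, `V3 = (4,4,-4)`, `V4 = (-4,-4,-4)` of `tet` are
`P1 = (-4α-4β, 4α-4γ)`, `P2 = (4α+4β, 4α+4γ)`, `P3 = (4α-4β, -4α-4γ)`, `P4 = (-4α+4β, -4α+4γ)`.

* If `|β| + |γ| ≤ |α|`: the image contains the triangles `P1 P3 P2` and `P1 P3 P4`, which lie on
  different sides of the line `z 0 + z 1 = -4(β+γ)` through `P1, P3` (the values of `z 0 + z 1` at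
  `P2`, `P4` are `4(β+γ) ± 8α`); areas `32 |α| |α+β+γ|` and `32 |α| |α-β-γ|`, sum `64 α²`, and
  `2 α² ≥ 1` because `α² ≥ β² + γ²`. (see `two_tri_le` in file Tri for a horizontal line; the
  needed variant has the line `z 0 + z 1 = c`, a null set)
* Otherwise the image contains the triangle
  `P1 P2 P3` (area `32 |α| |α+β+γ|`), `P1 P3 P4` (area `32 |α| |α-β-γ|`),
  `P1 P2 P4` (area `32 |α| |α+β-γ|`), `P2 P3 P4` (area `32 |α| |α-β+γ|`); by the signs of
  `β/α`, `γ/α` one of the numbers in the last factor is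
  `|α| + |β| + |γ| ≥ sqrt 2` (its square is `1 + 2(|αβ|+|βγ|+|γα|) ≥ 2` since
  `|α| ≥ |β|,|γ|` and `|β|+|γ| ≥ |α|`).
-/

open MeasureTheory
open scoped BigOperators ENNReal

namespace Vale.Agent.P243

/-- the projection along `(α, β, γ)` -/
noncomputable def shMap (α β γ : ℝ) : E3 →ₗ[ℝ] (Fin 2 → ℝ) := rowMap ![-β, α, 0] ![-γ, 0, α]

theorem image_continuous_coord (i : Fin 3) : Continuous (fun x : E3 => x i) := by
  fun_prop

theorem tet_isCompact : IsCompact tet := by
  refine Metric.isCompact_of_isClosed_isBounded ?_ ?_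
  · have c0 := image_continuous_coord 0
    have c1 := image_continuous_coord 1
    have c2 := image_continuous_coord 2
    have h1 : IsClosed {y : E3 | y 0 - y 1 - y 2 ≤ 4} :=
      isClosed_le ((c0.sub c1).sub c2) continuous_const
    have h2 : IsClosed {y : E3 | -y 0 + y 1 - y 2 ≤ 4} :=
      isClosed_le ((c0.neg.add c1).sub c2) continuous_const
    have h3 : IsClosed {y : E3 | y 0 + y 1 + y 2 ≤ 4} :=
      isClosed_le ((c0.add c1).add c2) continuous_const
    have h4 : IsClosed {y : E3 | -y 0 - y 1 + y 2 ≤ 4} :=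
      isClosed_le ((c0.neg.sub c1).add c2) continuous_const
    exact h1.inter (h2.inter (h3.inter h4))
  · refine (Metric.isBounded_iff_subset_closedBall 0).2 ⟨12, ?_⟩
    rintro y ⟨h1, h2, h3, h4⟩
    rw [mem_closedBall_zero_iff, EuclideanSpace.norm_eq, Fin.sum_univ_three]
    rw [Real.sqrt_le_left (by norm_num)]
    simp only [Real.norm_eq_abs, sq_abs]
    have a1 : y 0 ≤ 4 := by linarith
    have a2 : -4 ≤ y 0 := by linarith
    have b1 : y 1 ≤ 4 := by linarith
    have b2 : -4 ≤ y 1 := by linarith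
    have d1 : y 2 ≤ 4 := by linarith
    have d2 : -4 ≤ y 2 := by linarith
    have h7 : y 0 ^ 2 ≤ 16 := by nlinarith
    have h8 : y 1 ^ 2 ≤ 16 := by nlinarith
    have h9 : y 2 ^ 2 ≤ 16 := by nlinarith
    linarith

theorem tet_convex : Convex ℝ tet := by
  intro x hx y hy a b ha hb hab
  obtain ⟨hx1, hx2, hx3, hx4⟩ := hx
  obtain ⟨hy1, hy2, hy3, hy4⟩ := hy
  have hb' : b = 1 - a := by linarith
  subst hb'
  refine ⟨?_, ?_, ?_, ?_⟩ <;> simp only [PiLp.add_apply, PiLp.smul_apply, smul_eq_mul] <;> nlinarith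

theorem tet_interior : (interior tet).Nonempty := by
  refine ⟨0, ?_⟩
  rw [mem_interior]
  have c0 := image_continuous_coord 0
  have c1 := image_continuous_coord 1
  have c2 := image_continuous_coord 2
  refine ⟨{y : E3 | y 0 - y 1 - y 2 < 4} ∩ ({y : E3 | -y 0 + y 1 - y 2 < 4} ∩
    ({y : E3 | y 0 + y 1 + y 2 < 4} ∩ {y : E3 | -y 0 - y 1 + y 2 < 4})), ?_, ?_, ?_⟩
  · rintro y ⟨h1, h2, h3, h4⟩
    exact ⟨le_of_lt h1, le_of_lt h2, le_of_lt h3, le_of_lt h4⟩
  · exact (isOpen_lt ((c0.sub c1).sub c2) continuous_const).inter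
      ((isOpen_lt ((c0.neg.add c1).sub c2) continuous_const).inter
      ((isOpen_lt ((c0.add c1).add c2) continuous_const).inter
      (isOpen_lt ((c0.neg.sub c1).add c2) continuous_const)))
  · refine ⟨?_, ?_, ?_, ?_⟩ <;> simp

theorem image_line_null (c : ℝ) : volume {z : Fin 2 → ℝ | z 0 + z 1 = c} = 0 := by
  have h5 := Measure.pi_hyperplane (ι := Fin 2) (α := fun _ => ℝ)
    (fun _ => (volume : Measure ℝ)) 1 c
  rw [← volume_pi] at h5
  have hdet : LinearMap.det (Matrix.toLin' !![(1 : ℝ), 0; 1, 1]) = 1 := by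
    rw [LinearMap.det_toLin', Matrix.det_fin_two_of]
    ring
  have h6 := Measure.addHaar_preimage_linearMap (volume : Measure (Fin 2 → ℝ))
    (f := Matrix.toLin' !![(1 : ℝ), 0; 1, 1]) (by rw [hdet]; exact one_ne_zero)
    {z : Fin 2 → ℝ | z 1 = c}
  rw [h5, mul_zero] at h6
  have e : (Matrix.toLin' !![(1 : ℝ), 0; 1, 1]) ⁻¹' {z : Fin 2 → ℝ | z 1 = c} =
      {z : Fin 2 → ℝ | z 0 + z 1 = c} := by
    ext z
    simp [Matrix.toLin'_apply, Matrix.mulVec, dotProduct, Fin.sum_univ_two]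
  rw [e] at h6
  exact h6

/-- a set containing two triangles on both sides of a line `z 0 + z 1 = c` -/
theorem image_two_tri_le {S : Set (Fin 2 → ℝ)} {P Q R R' : Fin 2 → ℝ} {c : ℝ}
    (hP : P 0 + P 1 = c) (hQ : Q 0 + Q 1 = c) (hR : c ≤ R 0 + R 1) (hR' : R' 0 + R' 1 ≤ c)
    (h1 : tri P Q R ⊆ S) (h2 : tri P Q R' ⊆ S) :
    volume (tri P Q R) + volume (tri P Q R') ≤ volume S := by
  have hd : AEDisjoint volume (tri P Q R) (tri P Q R') := by
    have hsub : tri P Q R ∩ tri P Q R' ⊆ {z : Fin 2 → ℝ | z 0 + z 1 = c} := by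
      rintro z ⟨⟨s, r, _, hr, _, e⟩, ⟨s', r', _, hr', _, e'⟩⟩
      have e1 : z 0 + z 1 = c + r * (R 0 + R 1 - c) := by
        rw [e]
        simp only [Pi.add_apply, Pi.smul_apply, Pi.sub_apply, smul_eq_mul]
        linear_combination (1 - s - r) * hP + s * hQ
      have e2 : z 0 + z 1 = c + r' * (R' 0 + R' 1 - c) := by
        rw [e']
        simp only [Pi.add_apply, Pi.smul_apply, Pi.sub_apply, smul_eq_mul]
        linear_combination (1 - s' - r') * hP + s' * hQ
      have h3 : 0 ≤ r * (R 0 + R 1 - c) := mul_nonneg hr (by linarith)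
      have h4 : r' * (R' 0 + R' 1 - c) ≤ 0 := mul_nonpos_of_nonneg_of_nonpos hr' (by linarith)
      show z 0 + z 1 = c
      linarith
    exact measure_mono_null hsub (image_line_null c)
  rw [← measure_union₀ (isCompact_tri P Q R').measurableSet.nullMeasurableSet hd]
  exact measure_mono (Set.union_subset h1 h2)

theorem image_tri_subset {S : Set (Fin 2 → ℝ)} (hc : Convex ℝ S) {P Q R : Fin 2 → ℝ}
    (hP : P ∈ S) (hQ : Q ∈ S) (hR : R ∈ S) : tri P Q R ⊆ S := by
  rintro z ⟨s, r, hs, hr, hsr, rfl⟩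
  have h := hc.sum_mem (t := (Finset.univ : Finset (Fin 3))) (w := ![1 - s - r, s, r])
    (z := ![P, Q, R]) (by
      intro i _
      fin_cases i
      · simp; linarith
      · simpa using hs
      · simpa using hr) (by simp [Fin.sum_univ_three]; ring) (by
      intro i _
      fin_cases i
      · simpa using hP
      · simpa using hQ
      · simpa using hR)
  have e : P + s • (Q - P) + r • (R - P) = (1 - s - r) • P + s • Q + r • R := by
    module
  rw [e]
  simpa [Fin.sum_univ_three] using h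

theorem image_tri_le {S : Set (Fin 2 → ℝ)} (hc : Convex ℝ S) (hS : IsCompact S)
    {P Q R : Fin 2 → ℝ} (hP : P ∈ S) (hQ : Q ∈ S) (hR : R ∈ S) :
    |(Q 0 - P 0) * (R 1 - P 1) - (R 0 - P 0) * (Q 1 - P 1)| / 2 ≤ (volume S).toReal := by
  have h := measure_mono (μ := volume) (image_tri_subset hc hP hQ hR)
  rw [volume_tri] at h
  exact (ENNReal.ofReal_le_iff_le_toReal hS.measure_lt_top.ne).1 h

theorem image_two_le {S : Set (Fin 2 → ℝ)} (hc : Convex ℝ S) (hS : IsCompact S)
    {P Q R R' : Fin 2 → ℝ} {c : ℝ} (mP : P ∈ S) (mQ : Q ∈ S) (mR : R ∈ S) (mR' : R' ∈ S)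
    (hP : P 0 + P 1 = c) (hQ : Q 0 + Q 1 = c) (hR : c ≤ R 0 + R 1) (hR' : R' 0 + R' 1 ≤ c) :
    |(Q 0 - P 0) * (R 1 - P 1) - (R 0 - P 0) * (Q 1 - P 1)| / 2 +
      |(Q 0 - P 0) * (R' 1 - P 1) - (R' 0 - P 0) * (Q 1 - P 1)| / 2 ≤ (volume S).toReal := by
  have h := image_two_tri_le hP hQ hR hR' (image_tri_subset hc mP mQ mR)
    (image_tri_subset hc mP mQ mR')
  rw [volume_tri, volume_tri, ← ENNReal.ofReal_add (by positivity) (by positivity)] at h
  exact (ENNReal.ofReal_le_iff_le_toReal hS.measure_lt_top.ne).1 h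

theorem image_vertex (α β γ : ℝ) :
    ![-4 * α - 4 * β, 4 * α - 4 * γ] ∈ shMap α β γ '' tet ∧
    ![4 * α + 4 * β, 4 * α + 4 * γ] ∈ shMap α β γ '' tet ∧
    ![4 * α - 4 * β, -4 * α - 4 * γ] ∈ shMap α β γ '' tet ∧
    ![-4 * α + 4 * β, -4 * α + 4 * γ] ∈ shMap α β γ '' tet := by
  refine ⟨⟨!₂[4, -4, 4], ?_, ?_⟩, ⟨!₂[-4, 4, 4], ?_, ?_⟩, ⟨!₂[4, 4, -4], ?_, ?_⟩,
    ⟨!₂[-4, -4, -4], ?_, ?_⟩⟩
  · refine ⟨?_, ?_, ?_, ?_⟩ <;> simp <;> norm_num
  · rw [shMap, rowMap_apply]
    funext i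
    fin_cases i <;> simp <;> ring
  · refine ⟨?_, ?_, ?_, ?_⟩ <;> simp <;> norm_num
  · rw [shMap, rowMap_apply]
    funext i
    fin_cases i <;> simp <;> ring
  · refine ⟨?_, ?_, ?_, ?_⟩ <;> simp <;> norm_num
  · rw [shMap, rowMap_apply]
    funext i
    fin_cases i <;> simp <;> ring
  · refine ⟨?_, ?_, ?_, ?_⟩ <;> simp <;> norm_num
  · rw [shMap, rowMap_apply]
    funext i
    fin_cases i <;> simp <;> ring

/-- the areas of the four triangles -/
theorem image_four (α β γ : ℝ) :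
    32 * (|α| * |α + β + γ|) ≤ (volume (shMap α β γ '' tet)).toReal ∧
    32 * (|α| * |α - β - γ|) ≤ (volume (shMap α β γ '' tet)).toReal ∧
    32 * (|α| * |α + β - γ|) ≤ (volume (shMap α β γ '' tet)).toReal ∧
    32 * (|α| * |α - β + γ|) ≤ (volume (shMap α β γ '' tet)).toReal := by
  obtain ⟨m1, m2, m3, m4⟩ := image_vertex α β γ
  have hc : Convex ℝ (shMap α β γ '' tet) := tet_convex.linear_image _
  have hS : IsCompact (shMap α β γ '' tet) :=
    tet_isCompact.image (LinearMap.continuous_of_finiteDimensional _)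
  have key : ∀ a b : ℝ, |64 * (a * b)| / 2 = 32 * (|a| * |b|) := by
    intro a b
    rw [abs_mul, abs_mul]
    norm_num
    ring
  refine ⟨?_, ?_, ?_, ?_⟩
  · have h := image_tri_le hc hS m1 m3 m2
    simp only [Matrix.cons_val_zero, Matrix.cons_val_one] at h
    rw [← key]
    convert h using 3
    ring
  · have h := image_tri_le hc hS m1 m4 m3
    simp only [Matrix.cons_val_zero, Matrix.cons_val_one] at h
    rw [← key]
    convert h using 3
    ring
  · have h := image_tri_le hc hS m1 m4 m2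
    simp only [Matrix.cons_val_zero, Matrix.cons_val_one] at h
    rw [← key]
    convert h using 3
    ring
  · have h := image_tri_le hc hS m2 m4 m3
    simp only [Matrix.cons_val_zero, Matrix.cons_val_one] at h
    rw [← key]
    convert h using 3
    ring

theorem image_case1 (α β γ : ℝ) (h : |β| + |γ| ≤ |α|) :
    64 * α ^ 2 ≤ (volume (shMap α β γ '' tet)).toReal := by
  obtain ⟨m1, m2, m3, m4⟩ := image_vertex α β γ
  have hc : Convex ℝ (shMap α β γ '' tet) := tet_convex.linear_image _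
  have hS : IsCompact (shMap α β γ '' tet) :=
    tet_isCompact.image (LinearMap.continuous_of_finiteDimensional _)
  have hb := abs_le.1 (le_refl |β|)
  have hg := abs_le.1 (le_refl |γ|)
  rcases le_total 0 α with ha | ha
  · rw [abs_of_nonneg ha] at h
    have h5 := image_two_le (c := -4 * (β + γ)) hc hS m1 m3 m2 m4
      (by simp only [Matrix.cons_val_zero, Matrix.cons_val_one]; ring)
      (by simp only [Matrix.cons_val_zero, Matrix.cons_val_one]; ring)
      (by simp only [Matrix.cons_val_zero, Matrix.cons_val_one]; linarith)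
      (by simp only [Matrix.cons_val_zero, Matrix.cons_val_one]; linarith)
    simp only [Matrix.cons_val_zero, Matrix.cons_val_one] at h5
    have h6 := le_abs_self ((4 * α - 4 * β - (-4 * α - 4 * β)) * (4 * α + 4 * γ - (4 * α - 4 * γ)) -
      (4 * α + 4 * β - (-4 * α - 4 * β)) * (-4 * α - 4 * γ - (4 * α - 4 * γ)))
    have h7 := neg_abs_le ((4 * α - 4 * β - (-4 * α - 4 * β)) *
      (-4 * α + 4 * γ - (4 * α - 4 * γ)) -
      (-4 * α + 4 * β - (-4 * α - 4 * β)) * (-4 * α - 4 * γ - (4 * α - 4 * γ)))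
    nlinarith
  · rw [abs_of_nonpos ha] at h
    have h5 := image_two_le (c := -4 * (β + γ)) hc hS m1 m3 m4 m2
      (by simp only [Matrix.cons_val_zero, Matrix.cons_val_one]; ring)
      (by simp only [Matrix.cons_val_zero, Matrix.cons_val_one]; ring)
      (by simp only [Matrix.cons_val_zero, Matrix.cons_val_one]; linarith)
      (by simp only [Matrix.cons_val_zero, Matrix.cons_val_one]; linarith)
    simp only [Matrix.cons_val_zero, Matrix.cons_val_one] at h5
    have h6 := le_abs_self ((4 * α - 4 * β - (-4 * α - 4 * β)) * (4 * α + 4 * γ - (4 * α - 4 * γ)) -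
      (4 * α + 4 * β - (-4 * α - 4 * β)) * (-4 * α - 4 * γ - (4 * α - 4 * γ)))
    have h7 := neg_abs_le ((4 * α - 4 * β - (-4 * α - 4 * β)) *
      (-4 * α + 4 * γ - (4 * α - 4 * γ)) -
      (-4 * α + 4 * β - (-4 * α - 4 * β)) * (-4 * α - 4 * γ - (4 * α - 4 * γ)))
    nlinarith

theorem image_case2 (α β γ : ℝ) :
    32 * (|α| * (|α| + |β| + |γ|)) ≤ (volume (shMap α β γ '' tet)).toReal := by
  obtain ⟨h1, h2, h3, h4⟩ := image_four α β γ
  have key : ∀ x : ℝ, |α| + |β| + |γ| ≤ |x| → 32 * (|α| * |x|) ≤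
      (volume (shMap α β γ '' tet)).toReal →
      32 * (|α| * (|α| + |β| + |γ|)) ≤ (volume (shMap α β γ '' tet)).toReal := by
    intro x hx hh
    refine le_trans ?_ hh
    have := mul_le_mul_of_nonneg_left hx (abs_nonneg α)
    linarith
  rcases le_total 0 α with ha | ha <;> rcases le_total 0 β with hb | hb <;>
    rcases le_total 0 γ with hg | hg
  · refine key _ ?_ h1
    rw [abs_of_nonneg ha, abs_of_nonneg hb, abs_of_nonneg hg]
    exact le_abs_self _
  · refine key _ ?_ h3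
    rw [abs_of_nonneg ha, abs_of_nonneg hb, abs_of_nonpos hg]
    refine le_trans (le_of_eq ?_) (le_abs_self _)
    ring
  · refine key _ ?_ h4
    rw [abs_of_nonneg ha, abs_of_nonpos hb, abs_of_nonneg hg]
    refine le_trans (le_of_eq ?_) (le_abs_self _)
    ring
  · refine key _ ?_ h2
    rw [abs_of_nonneg ha, abs_of_nonpos hb, abs_of_nonpos hg]
    refine le_trans (le_of_eq ?_) (le_abs_self _)
    ring
  · refine key _ ?_ h2
    rw [abs_of_nonpos ha, abs_of_nonneg hb, abs_of_nonneg hg]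
    refine le_trans (le_of_eq ?_) (neg_le_abs _)
    ring
  · refine key _ ?_ h4
    rw [abs_of_nonpos ha, abs_of_nonneg hb, abs_of_nonpos hg]
    refine le_trans (le_of_eq ?_) (neg_le_abs _)
    ring
  · refine key _ ?_ h3
    rw [abs_of_nonpos ha, abs_of_nonpos hb, abs_of_nonneg hg]
    refine le_trans (le_of_eq ?_) (neg_le_abs _)
    ring
  · refine key _ ?_ h1
    rw [abs_of_nonpos ha, abs_of_nonpos hb, abs_of_nonpos hg]
    refine le_trans (le_of_eq ?_) (neg_le_abs _)
    ring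

theorem image_ge (α β γ : ℝ) (h1 : |β| ≤ |α|) (h2 : |γ| ≤ |α|) (h3 : α ^ 2 + β ^ 2 + γ ^ 2 = 1) :
    32 * Real.sqrt 2 * |α| ≤ (volume (shMap α β γ '' tet)).toReal := by
  have ha := abs_nonneg α
  have hb := abs_nonneg β
  have hg := abs_nonneg γ
  have h3' : |α| ^ 2 + |β| ^ 2 + |γ| ^ 2 = 1 := by
    rw [sq_abs, sq_abs, sq_abs]
    exact h3
  rcases le_total (|β| + |γ|) |α| with h | h
  · refine le_trans ?_ (image_case1 α β γ h)
    have e : α ^ 2 = |α| ^ 2 := (sq_abs α).symm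
    rw [e]
    have h4 : Real.sqrt 2 ≤ 2 * |α| := by
      rw [Real.sqrt_le_left (by positivity)]
      nlinarith [mul_nonneg hb hg]
    nlinarith [mul_le_mul_of_nonneg_left h4 ha]
  · refine le_trans ?_ (image_case2 α β γ)
    have h4 : Real.sqrt 2 ≤ |α| + |β| + |γ| := by
      rw [Real.sqrt_le_left (by positivity)]
      have k1 : 0 ≤ |α| * (|β| + |γ| - |α|) := mul_nonneg ha (by linarith)
      rcases le_total |β| |γ| with hbg | hbg
      · nlinarith [mul_nonneg hb (sub_nonneg.2 hbg), mul_nonneg hg (sub_nonneg.2 h2),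
          mul_nonneg ha (sub_nonneg.2 h2), mul_nonneg hb hg]
      · nlinarith [mul_nonneg hg (sub_nonneg.2 hbg), mul_nonneg hb (sub_nonneg.2 h1),
          mul_nonneg ha (sub_nonneg.2 h1), mul_nonneg hb hg]
    nlinarith [mul_le_mul_of_nonneg_left h4 ha]

end Vale.Agent.P243
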