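import Vale.Agent.Lib.P243.Abs.Base

/-!
# The sum of the areas

With `h = 1/N`, `m = mu N k`, `u = m²`, `X = om h m ^ 2 + 2 * nu m ^ 2`, i.e.
`X = (1+u-h²)²/100 + 2u/25`.  Numerically the sum is `0.999433 + h` (so `0.99954` at `N = 10000`);
the claim is `≤ 4999/5000 = 0.9998`.

Proof.  `sqrt(1+X) ≥ 1 + X/2 - X²/8`.  With
`g(u) = 9952/10000 - (85/10000) u + (33/1000) u² + (5/1000) u³` one has (margin `> 5e-5` relative)
`(1 + ee u + h/2)² ≤ g(u) (1 + X/2 - X²/8)` for `u ∈ [0,1]`, `0 < h ≤ 1/10000` (the difference has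
positive Bernstein coefficients in degree `8`).
Then `2 h m^(2j) ≤ (τ_{k+1}^(2j+1) - τ_k^(2j+1)) / (2j+1)` for `j = 2,3` (`τ_k = m - h`,
`τ_{k+1} = m + h`, `m = mu N k`, `h = 1/N`) and `2 h m² = (τ_{k+1}³ - τ_k³)/3 - 2h³/3` for `j = 1`,
so the sum telescopes (`Finset.sum_range_sub`) and is at most
`9952/10000 - (85/10000)/3 + (33/1000)/5 + (5/1000)/7 + h² = 0.99968.. + h²`.
-/

open scoped BigOperators

namespace Vale.Agent.P243

/-- the comparison function -/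
noncomputable def Sum_g (u : ℝ) : ℝ :=
  9952 / 10000 - 85 / 10000 * u + 33 / 1000 * u ^ 2 + 5 / 1000 * u ^ 3

theorem Sum_g_pos {u : ℝ} (h0 : 0 ≤ u) (h1 : u ≤ 1) : 0 < Sum_g u := by
  unfold Sum_g
  have h2 : 0 ≤ u ^ 2 := by positivity
  have h3 : 0 ≤ u ^ 3 := by positivity
  linarith

/-- the polynomial inequality, with positive Bernstein coefficients -/
theorem Sum_poly {u : ℝ} (h0 : 0 ≤ u) (h1 : u ≤ 1) :
    (1 + 1 / 20000 + ee u) ^ 2 ≤ Sum_g u * (1 +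
      ((1 + u) ^ 2 / 100 + 2 * u / 25 - 1 / 1000000000) / 2 -
      ((1 + u) ^ 2 / 100 + 2 * u / 25 - 1 / 1000000000) ^ 2 / 8) := by
  obtain ⟨w, hw⟩ : ∃ w : ℝ, w = 1 - u := ⟨_, rfl⟩
  have hw0 : 0 ≤ w := by linarith
  have key : 0 ≤ 
      (158892512219999689 / 2500000000000000000000) * (u ^ 0 * w ^ 8) +
      (118020985457019920469 / 80000000000000000000000) * (u ^ 1 * w ^ 7) +
      (367525806118659721609 / 80000000000000000000000) * (u ^ 2 * w ^ 6) +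
      (458347523878079442443 / 80000000000000000000000) * (u ^ 3 * w ^ 5) +
      (74913158249999860227 / 16000000000000000000000) * (u ^ 4 * w ^ 4) +
      (416623439495939438563 / 80000000000000000000000) * (u ^ 5 * w ^ 3) +
      (405483721637019717679 / 80000000000000000000000) * (u ^ 6 * w ^ 2) +
      (187302092036959918749 / 80000000000000000000000) * (u ^ 7 * w ^ 1) +
      (27537361471279989753 / 80000000000000000000000) * (u ^ 8 * w ^ 0) := by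
    positivity
  have e : Sum_g u * (1 +
      ((1 + u) ^ 2 / 100 + 2 * u / 25 - 1 / 1000000000) / 2 -
      ((1 + u) ^ 2 / 100 + 2 * u / 25 - 1 / 1000000000) ^ 2 / 8) -
      (1 + 1 / 20000 + ee u) ^ 2 = 
      (158892512219999689 / 2500000000000000000000) * (u ^ 0 * w ^ 8) +
      (118020985457019920469 / 80000000000000000000000) * (u ^ 1 * w ^ 7) +
      (367525806118659721609 / 80000000000000000000000) * (u ^ 2 * w ^ 6) +
      (458347523878079442443 / 80000000000000000000000) * (u ^ 3 * w ^ 5) +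
      (74913158249999860227 / 16000000000000000000000) * (u ^ 4 * w ^ 4) +
      (416623439495939438563 / 80000000000000000000000) * (u ^ 5 * w ^ 3) +
      (405483721637019717679 / 80000000000000000000000) * (u ^ 6 * w ^ 2) +
      (187302092036959918749 / 80000000000000000000000) * (u ^ 7 * w ^ 1) +
      (27537361471279989753 / 80000000000000000000000) * (u ^ 8 * w ^ 0) := by
    rw [hw]
    unfold Sum_g ee
    ring
  linarith

theorem Sum_sqrt {Y X : ℝ} (hY0 : 0 ≤ Y) (hY8 : Y ≤ 8) (hYX : Y ≤ X) :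
    1 + Y / 2 - Y ^ 2 / 8 ≤ Real.sqrt (1 + X) := by
  apply Real.le_sqrt_of_sq_le
  have h3 : 0 ≤ Y ^ 3 * (8 - Y) := mul_nonneg (by positivity) (by linarith)
  nlinarith

theorem Sum_key {u h : ℝ} (hu0 : 0 ≤ u) (hu1 : u ≤ 1) (h0 : 0 ≤ h) (h1 : h ≤ 1 / 10000) :
    (1 + ee u + h / 2) ^ 2 /
      Real.sqrt (1 + ((1 + u - h ^ 2) ^ 2 / 100 + 2 * u / 25)) ≤ Sum_g u := by
  have hh : h ^ 2 ≤ 1 / 100000000 := by nlinarith
  have hh0 : 0 ≤ h ^ 2 := sq_nonneg h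
  have hX : (1 + u) ^ 2 / 100 + 2 * u / 25 - 1 / 1000000000 ≤
      (1 + u - h ^ 2) ^ 2 / 100 + 2 * u / 25 := by
    nlinarith
  have hY0 : 0 ≤ (1 + u) ^ 2 / 100 + 2 * u / 25 - 1 / 1000000000 := by nlinarith
  have hY8 : (1 + u) ^ 2 / 100 + 2 * u / 25 - 1 / 1000000000 ≤ 8 := by nlinarith
  have hs := Sum_sqrt hY0 hY8 hX
  have hg := Sum_g_pos hu0 hu1
  have hp := Sum_poly hu0 hu1
  have hee : 0 ≤ ee u := by
    unfold ee
    positivity
  have hr : (1 + ee u + h / 2) ^ 2 ≤ (1 + 1 / 20000 + ee u) ^ 2 := by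
    apply pow_le_pow_left₀ (by positivity)
    linarith
  have hpos : 0 < Real.sqrt (1 + ((1 + u - h ^ 2) ^ 2 / 100 + 2 * u / 25)) := by
    apply Real.sqrt_pos.2
    positivity
  rw [div_le_iff₀ hpos]
  calc (1 + ee u + h / 2) ^ 2 ≤ (1 + 1 / 20000 + ee u) ^ 2 := hr
    _ ≤ _ := hp
    _ ≤ _ := mul_le_mul_of_nonneg_left hs hg.le

theorem Sum_term {N : ℕ} (hN : 0 < N) (k : ℕ) :
    1 / (N : ℝ) * Sum_g (mu N k ^ 2) ≤ 9952 / 10000 * (1 / (N : ℝ)) -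
      85 / 10000 * ((tau N (k + 1) ^ 3 - tau N k ^ 3) / 6 - (1 / (N : ℝ)) ^ 3 / 3) +
      33 / 1000 * ((tau N (k + 1) ^ 5 - tau N k ^ 5) / 10) +
      5 / 1000 * ((tau N (k + 1) ^ 7 - tau N k ^ 7) / 14) := by
  have hN0 : (0 : ℝ) < N := by exact_mod_cast hN
  obtain ⟨h, hh⟩ : ∃ h : ℝ, h = 1 / (N : ℝ) := ⟨_, rfl⟩
  obtain ⟨m, hm⟩ : ∃ m : ℝ, m = mu N k := ⟨_, rfl⟩
  have hh0 : 0 < h := by rw [hh]; positivity
  have e1 : tau N k = m - h := by
    rw [hm, hh]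
    unfold tau mu
    field_simp
    ring
  have e2 : tau N (k + 1) = m + h := by
    rw [hm, hh]
    unfold tau mu
    push_cast
    field_simp
    ring
  rw [e1, e2, ← hh, ← hm]
  have i5 : h * m ^ 4 ≤ ((m + h) ^ 5 - (m - h) ^ 5) / 10 := by
    have : ((m + h) ^ 5 - (m - h) ^ 5) / 10 = h * m ^ 4 + (2 * (h ^ 3 * m ^ 2) + h ^ 5 / 5) := by
      ring
    rw [this]
    have : 0 ≤ 2 * (h ^ 3 * m ^ 2) + h ^ 5 / 5 := by positivity
    linarith
  have i7 : h * m ^ 6 ≤ ((m + h) ^ 7 - (m - h) ^ 7) / 14 := by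
    have : ((m + h) ^ 7 - (m - h) ^ 7) / 14 =
        h * m ^ 6 + (5 * (h ^ 3 * m ^ 4) + 3 * (h ^ 5 * m ^ 2) + h ^ 7 / 7) := by
      ring
    rw [this]
    have : 0 ≤ 5 * (h ^ 3 * m ^ 4) + 3 * (h ^ 5 * m ^ 2) + h ^ 7 / 7 := by positivity
    linarith
  have i3 : h * m ^ 2 = ((m + h) ^ 3 - (m - h) ^ 3) / 6 - h ^ 3 / 3 := by ring
  unfold Sum_g
  rw [← i3]
  have e3 : h * (9952 / 10000 - 85 / 10000 * m ^ 2 + 33 / 1000 * (m ^ 2) ^ 2 +
      5 / 1000 * (m ^ 2) ^ 3) = 9952 / 10000 * h - 85 / 10000 * (h * m ^ 2) +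
      33 / 1000 * (h * m ^ 4) + 5 / 1000 * (h * m ^ 6) := by ring
  rw [e3]
  linarith

theorem sum_le (N : ℕ) (hN : 10000 ≤ N) :
    ∑ k ∈ Finset.range N, (1 / (N : ℝ)) * rho (1 / N) (mu N k) ^ 2 /
      Real.sqrt (1 + om (1 / N) (mu N k) ^ 2 + 2 * nu (mu N k) ^ 2) ≤ 4999 / 5000 := by
  have hN0 : (0 : ℝ) < N := by
    have : 0 < N := by omega
    exact_mod_cast this
  have hN1 : (10000 : ℝ) ≤ N := by exact_mod_cast hN
  have hh0 : 0 ≤ 1 / (N : ℝ) := by positivity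
  have hh1 : 1 / (N : ℝ) ≤ 1 / 10000 := by
    apply one_div_le_one_div_of_le (by norm_num) hN1
  have h1 : ∀ k ∈ Finset.range N, (1 / (N : ℝ)) * rho (1 / N) (mu N k) ^ 2 /
      Real.sqrt (1 + om (1 / N) (mu N k) ^ 2 + 2 * nu (mu N k) ^ 2) ≤
      9952 / 10000 * (1 / (N : ℝ)) -
      85 / 10000 * ((tau N (k + 1) ^ 3 - tau N k ^ 3) / 6 - (1 / (N : ℝ)) ^ 3 / 3) +
      33 / 1000 * ((tau N (k + 1) ^ 5 - tau N k ^ 5) / 10) +
      5 / 1000 * ((tau N (k + 1) ^ 7 - tau N k ^ 7) / 14) := by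
    intro k hk
    have hk' : k < N := Finset.mem_range.1 hk
    have hkr : (k : ℝ) + 1 ≤ N := by exact_mod_cast hk'
    have hm1 : mu N k ≤ 1 := by
      unfold mu
      rw [div_le_one hN0]
      linarith
    have hm2 : -1 ≤ mu N k := by
      unfold mu
      rw [le_div_iff₀ hN0]
      have : (0 : ℝ) ≤ k := Nat.cast_nonneg k
      linarith
    have hu0 : 0 ≤ mu N k ^ 2 := sq_nonneg _
    have hu1 : mu N k ^ 2 ≤ 1 := by nlinarith
    refine le_trans ?_ (Sum_term (by omega) k)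
    rw [mul_div_assoc]
    apply mul_le_mul_of_nonneg_left _ hh0
    have h2 := Sum_key hu0 hu1 hh0 hh1
    have e1 : 1 + om (1 / (N : ℝ)) (mu N k) ^ 2 + 2 * nu (mu N k) ^ 2 =
        1 + ((1 + mu N k ^ 2 - (1 / (N : ℝ)) ^ 2) ^ 2 / 100 + 2 * mu N k ^ 2 / 25) := by
      unfold om nu
      ring
    rw [e1]
    exact h2
  refine (Finset.sum_le_sum h1).trans ?_
  have t0 : tau N 0 = -1 := by
    unfold tau
    field_simp
    simp
  have tN : tau N N = 1 := by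
    unfold tau
    field_simp
    ring
  have s3 : ∑ k ∈ Finset.range N, (tau N (k + 1) ^ 3 - tau N k ^ 3) = 2 := by
    rw [Finset.sum_range_sub (fun k => tau N k ^ 3), t0, tN]
    norm_num
  have s5 : ∑ k ∈ Finset.range N, (tau N (k + 1) ^ 5 - tau N k ^ 5) = 2 := by
    rw [Finset.sum_range_sub (fun k => tau N k ^ 5), t0, tN]
    norm_num
  have s7 : ∑ k ∈ Finset.range N, (tau N (k + 1) ^ 7 - tau N k ^ 7) = 2 := by
    rw [Finset.sum_range_sub (fun k => tau N k ^ 7), t0, tN]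
    norm_num
  have e : ∑ k ∈ Finset.range N, (9952 / 10000 * (1 / (N : ℝ)) -
      85 / 10000 * ((tau N (k + 1) ^ 3 - tau N k ^ 3) / 6 - (1 / (N : ℝ)) ^ 3 / 3) +
      33 / 1000 * ((tau N (k + 1) ^ 5 - tau N k ^ 5) / 10) +
      5 / 1000 * ((tau N (k + 1) ^ 7 - tau N k ^ 7) / 14)) =
      (N : ℝ) * (9952 / 10000 * (1 / (N : ℝ)) + 85 / 10000 * ((1 / (N : ℝ)) ^ 3 / 3)) -
      85 / 60000 * ∑ k ∈ Finset.range N, (tau N (k + 1) ^ 3 - tau N k ^ 3) +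
      33 / 10000 * ∑ k ∈ Finset.range N, (tau N (k + 1) ^ 5 - tau N k ^ 5) +
      5 / 14000 * ∑ k ∈ Finset.range N, (tau N (k + 1) ^ 7 - tau N k ^ 7) := by
    have c : (N : ℝ) * (9952 / 10000 * (1 / (N : ℝ)) + 85 / 10000 * ((1 / (N : ℝ)) ^ 3 / 3)) =
        ∑ _k ∈ Finset.range N,
          (9952 / 10000 * (1 / (N : ℝ)) + 85 / 10000 * ((1 / (N : ℝ)) ^ 3 / 3)) := by
      rw [Finset.sum_const, Finset.card_range, nsmul_eq_mul]
    rw [c, Finset.mul_sum, Finset.mul_sum, Finset.mul_sum, ← Finset.sum_sub_distrib,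
      ← Finset.sum_add_distrib, ← Finset.sum_add_distrib]
    apply Finset.sum_congr rfl
    intro k _
    ring
  rw [e, s3, s5, s7]
  have e2 : (N : ℝ) * (9952 / 10000 * (1 / (N : ℝ)) + 85 / 10000 * ((1 / (N : ℝ)) ^ 3 / 3)) =
      9952 / 10000 + 85 / 30000 * (1 / (N : ℝ)) ^ 2 := by
    field_simp
    ring
  rw [e2]
  have h3 : (1 / (N : ℝ)) ^ 2 ≤ 1 / 10000 := by nlinarith
  linarith

end Vale.Agent.P243
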