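import Vale.Agent.Lib.P243.Abs.Area
import Vale.Agent.Lib.P243.Abs.Image
import Vale.Agent.Lib.P243.Abs.Cover
import Vale.Agent.Lib.P243.Abs.Sum

/-!
# The two fans of cylinders
-/

open MeasureTheory
open scoped BigOperators ENNReal

namespace Vale.Agent.P243

/-! ### the two linear maps -/

/-- first row, first fan -/
noncomputable def rowA (o : ℝ) : Fin 3 → ℝ := ![1 + o, -1 + o, 0]
/-- second row, first fan -/
noncomputable def rowB (n : ℝ) : Fin 3 → ℝ := ![-n, -n, 1]
/-- axis, first fan -/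
noncomputable def axis1 (o n : ℝ) : E3 := !₂[(1 - o) / 2, (1 + o) / 2, n]
/-- first row, second fan -/
noncomputable def rowA' (o : ℝ) : Fin 3 → ℝ := ![1 - o, 1 + o, 0]
/-- second row, second fan -/
noncomputable def rowB' (n : ℝ) : Fin 3 → ℝ := ![n, -n, -1]
/-- axis, second fan -/
noncomputable def axis2 (o n : ℝ) : E3 := !₂[-(1 + o) / 2, (1 - o) / 2, -n]

theorem axis1_ne (o n : ℝ) : axis1 o n ≠ 0 := by
  intro h
  have h0 := congrArg (fun x : E3 => x 0) h
  have h1 := congrArg (fun x : E3 => x 1) h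
  simp [axis1] at h0 h1
  linarith

theorem axis2_ne (o n : ℝ) : axis2 o n ≠ 0 := by
  intro h
  have h0 := congrArg (fun x : E3 => x 0) h
  have h1 := congrArg (fun x : E3 => x 1) h
  simp [axis2] at h0 h1
  rcases h0 with h0
  linarith

theorem row1_axis (o n : ℝ) : rowMap (rowA o) (rowB n) (axis1 o n) = 0 := by
  rw [rowMap_apply]
  funext i
  fin_cases i
  · simp [rowA, axis1]; ring
  · simp [rowB, axis1]; ring

theorem row2_axis (o n : ℝ) : rowMap (rowA' o) (rowB' n) (axis2 o n) = 0 := by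
  rw [rowMap_apply]
  funext i
  fin_cases i
  · simp [rowA', axis2]; ring
  · simp [rowB', axis2]; ring

theorem row1_ker (o n : ℝ) (x : E3) (hx : rowMap (rowA o) (rowB n) x = 0) :
    ∃ c : ℝ, x = c • axis1 o n := by
  refine ⟨x 0 + x 1, ?_⟩
  rw [rowMap_apply] at hx
  have h0 := congrFun hx 0
  have h1 := congrFun hx 1
  simp [rowA] at h0
  simp [rowB] at h1
  ext i
  fin_cases i
  · simp [axis1]
    linear_combination (1 / 2) * h0
  · simp [axis1]
    linear_combination (-1 / 2) * h0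
  · simp [axis1]
    linear_combination h1

theorem row2_ker (o n : ℝ) (x : E3) (hx : rowMap (rowA' o) (rowB' n) x = 0) :
    ∃ c : ℝ, x = c • axis2 o n := by
  refine ⟨x 1 - x 0, ?_⟩
  rw [rowMap_apply] at hx
  have h0 := congrFun hx 0
  have h1 := congrFun hx 1
  simp [rowA'] at h0
  simp [rowB'] at h1
  ext i
  fin_cases i
  · simp [axis2]
    linear_combination (1 / 2) * h0
  · simp [axis2]
    linear_combination (1 / 2) * h0
  · simp [axis2]
    linear_combination (-1) * h1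

theorem row1_surj (o n : ℝ) : Function.Surjective (rowMap (rowA o) (rowB n)) := by
  intro z
  refine ⟨!₂[z 0 / 2, -z 0 / 2, z 1], ?_⟩
  rw [rowMap_apply]
  funext i
  fin_cases i
  · simp [rowA]; ring
  · simp [rowB]; ring

theorem row2_surj (o n : ℝ) : Function.Surjective (rowMap (rowA' o) (rowB' n)) := by
  intro z
  refine ⟨!₂[z 0 / 2, z 0 / 2, -z 1], ?_⟩
  rw [rowMap_apply]
  funext i
  fin_cases i
  · simp [rowA']; ring
  · simp [rowB']

theorem gram1 (o n : ℝ) : gram (rowA o) (rowB n) = 2 * (1 + o ^ 2 + 2 * n ^ 2) := by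
  simp only [gram, rowA, rowB, Matrix.cons_val_zero, Matrix.cons_val_one, Matrix.cons_val]
  ring

theorem gram2 (o n : ℝ) : gram (rowA' o) (rowB' n) = 2 * (1 + o ^ 2 + 2 * n ^ 2) := by
  simp only [gram, rowA', rowB', Matrix.cons_val_zero, Matrix.cons_val_one, Matrix.cons_val]
  ring

/-! ### bases -/

/-- the base triangle of the sector `k` -/
noncomputable def baseD (N k : ℕ) : Set (Fin 2 → ℝ) :=
  tri ![0, -4]
    ![4 * rho (1 / N) (mu N k) * tau N k, 4 * rho (1 / N) (mu N k) - 4]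
    ![4 * rho (1 / N) (mu N k) * tau N (k + 1), 4 * rho (1 / N) (mu N k) - 4]

theorem baseD_compact (N k : ℕ) : IsCompact (baseD N k) := isCompact_tri _ _ _

theorem tau_sub (N k : ℕ) (hN : 0 < N) : tau N (k + 1) - tau N k = 2 / N := by
  have h : (N : ℝ) ≠ 0 := by positivity
  simp only [tau]
  push_cast
  field_simp
  ring

theorem ee_nonneg (u : ℝ) (hu : 0 ≤ u) : 0 ≤ ee u := by
  unfold ee
  positivity

theorem rho_ge_one (h m : ℝ) (hh : 0 ≤ h) : 1 ≤ rho h m := by
  have := ee_nonneg (m ^ 2) (sq_nonneg m)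
  unfold rho
  linarith

theorem volume_baseD (N k : ℕ) (hN : 0 < N) :
    (volume (baseD N k)).toReal = 16 * ((1 / (N : ℝ)) * rho (1 / N) (mu N k) ^ 2) := by
  have hN' : (0 : ℝ) < N := by exact_mod_cast hN
  have hr := rho_ge_one (1 / (N : ℝ)) (mu N k) (by positivity)
  have ht := tau_sub N k hN
  set r := rho (1 / (N : ℝ)) (mu N k) with hrdef
  rw [baseD, volume_tri, ENNReal.toReal_ofReal (by positivity)]
  simp only [Matrix.cons_val_zero, Matrix.cons_val_one, Matrix.cons_val]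
  rw [← hrdef]
  have e : (4 * r * tau N k - 0) * (4 * r - 4 - -4) - (4 * r * tau N (k + 1) - 0) * (4 * r - 4 - -4)
      = -(16 * r ^ 2 * (2 / N)) := by
    rw [← ht]
    ring
  rw [e, abs_neg, abs_of_nonneg (by positivity)]
  field_simp

theorem mem_baseD (N k : ℕ) (hN : 0 < N) (w z s : ℝ) (h : InSector N k w z s) :
    ![w + om (1 / N) (mu N k) * z, s - nu (mu N k) * z] ∈ baseD N k := by
  obtain ⟨h1, h2, h3⟩ := h
  have hN' : (0 : ℝ) < N := by exact_mod_cast hN
  have hr := rho_ge_one (1 / (N : ℝ)) (mu N k) (by positivity)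
  have ht := tau_sub N k hN
  set r := rho (1 / (N : ℝ)) (mu N k) with hrdef
  set b1 := w + om (1 / N) (mu N k) * z with hb1
  set b2 := s + 4 - nu (mu N k) * z with hb2
  have hr0 : (0 : ℝ) < r := by linarith
  have hd : (0 : ℝ) < 2 / N := by positivity
  have ht' : tau N (k + 1) = tau N k + 2 / N := by linarith
  rw [ht'] at h2
  have hb2n : 0 ≤ b2 := by
    have : 0 ≤ (2 / (N : ℝ)) * b2 := by linarith
    exact nonneg_of_mul_nonneg_right this hd
  refine ⟨((tau N k + 2 / N) * b2 - b1) / (8 * r / N), (b1 - tau N k * b2) / (8 * r / N), ?_, ?_,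
    ?_, ?_⟩
  · exact div_nonneg (by linarith) (by positivity)
  · exact div_nonneg (by linarith) (by positivity)
  · rw [← add_div, div_le_one (by positivity)]
    have e : (tau N k + 2 / N) * b2 - b1 + (b1 - tau N k * b2) = (2 / N) * b2 := by ring
    rw [e]
    have e2 : 8 * r / N = (2 / N) * (4 * r) := by ring
    rw [e2]
    exact mul_le_mul_of_nonneg_left h3 hd.le
  · have hs : s - nu (mu N k) * z = b2 - 4 := by rw [hb2]; ring
    rw [hs]
    funext i
    fin_cases i
    · simp only [Fin.zero_eta, Matrix.cons_val_zero, Pi.add_apply, Pi.smul_apply, Pi.sub_apply,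
        smul_eq_mul]
      rw [← hrdef, ht']
      field_simp
      ring
    · simp only [Fin.mk_one, Matrix.cons_val_one, Matrix.cons_val_zero, Pi.add_apply,
        Pi.smul_apply, Pi.sub_apply, smul_eq_mul]
      rw [← hrdef]
      field_simp
      ring

/-! ### the cylinders -/

/-- first fan -/
noncomputable def fan1 (N k : ℕ) : Cylinder E3 :=
  mkCyl (rowMap (rowA (om (1 / N) (mu N k))) (rowB (nu (mu N k))))
    (axis1 (om (1 / N) (mu N k)) (nu (mu N k))) (axis1_ne _ _) (row1_axis _ _) (row1_ker _ _)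
    (row1_surj _ _) (baseD N k) (baseD_compact N k)

/-- second fan -/
noncomputable def fan2 (N k : ℕ) : Cylinder E3 :=
  mkCyl (rowMap (rowA' (om (1 / N) (mu N k))) (rowB' (nu (mu N k))))
    (axis2 (om (1 / N) (mu N k)) (nu (mu N k))) (axis2_ne _ _) (row2_axis _ _) (row2_ker _ _)
    (row2_surj _ _) (baseD N k) (baseD_compact N k)

/-- one term of the sum -/
noncomputable def term (N k : ℕ) : ℝ :=
  (1 / (N : ℝ)) * rho (1 / N) (mu N k) ^ 2 /
    Real.sqrt (1 + om (1 / N) (mu N k) ^ 2 + 2 * nu (mu N k) ^ 2)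

theorem area_aux (N k : ℕ) (hN : 0 < N) :
    (volume (baseD N k)).toReal /
      Real.sqrt (2 * (1 + om (1 / N) (mu N k) ^ 2 + 2 * nu (mu N k) ^ 2)) =
      8 * Real.sqrt 2 * term N k := by
  rw [volume_baseD N k hN, Real.sqrt_mul (by norm_num), term]
  have h2 : Real.sqrt 2 ≠ 0 := by positivity
  have h3 : Real.sqrt (1 + om (1 / N) (mu N k) ^ 2 + 2 * nu (mu N k) ^ 2) ≠ 0 := by positivity
  have h4 : Real.sqrt 2 * Real.sqrt 2 = 2 := Real.mul_self_sqrt (by norm_num)
  rw [div_eq_iff (by positivity)]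
  have e : 8 * √2 * (1 / (N : ℝ) * rho (1 / N) (mu N k) ^ 2 /
      √(1 + om (1 / N) (mu N k) ^ 2 + 2 * nu (mu N k) ^ 2)) *
      (√2 * √(1 + om (1 / N) (mu N k) ^ 2 + 2 * nu (mu N k) ^ 2)) =
      8 * (√2 * √2) * (1 / (N : ℝ) * rho (1 / N) (mu N k) ^ 2) *
      (√(1 + om (1 / N) (mu N k) ^ 2 + 2 * nu (mu N k) ^ 2) /
      √(1 + om (1 / N) (mu N k) ^ 2 + 2 * nu (mu N k) ^ 2)) := by ring
  rw [e, h4, div_self h3]
  ring

theorem area_fan1 (N k : ℕ) (hN : 0 < N) : (fan1 N k).area = 8 * Real.sqrt 2 * term N k := by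
  rw [fan1, area_mkCyl, gram1, area_aux N k hN]

theorem area_fan2 (N k : ℕ) (hN : 0 < N) : (fan2 N k).area = 8 * Real.sqrt 2 * term N k := by
  rw [fan2, area_mkCyl, gram2, area_aux N k hN]

theorem mem_fan1 (N k : ℕ) (hN : 0 < N) (y : E3)
    (h : InSector N k (y 0 - y 1) (y 0 + y 1) (y 2)) : y ∈ (fan1 N k).carrier := by
  refine mem_mkCyl _ _ _ _ _ _ _ _ y ?_
  have h' := mem_baseD N k hN _ _ _ h
  rw [rowMap_apply]
  convert h' using 1
  funext i
  fin_cases i
  · simp [rowA]; ring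
  · simp [rowB]; ring

theorem mem_fan2 (N k : ℕ) (hN : 0 < N) (y : E3)
    (h : InSector N k (y 0 + y 1) (-(y 0 - y 1)) (-(y 2))) : y ∈ (fan2 N k).carrier := by
  refine mem_mkCyl _ _ _ _ _ _ _ _ y ?_
  have h' := mem_baseD N k hN _ _ _ h
  rw [rowMap_apply]
  convert h' using 1
  funext i
  fin_cases i
  · simp [rowA']; ring
  · simp [rowB']; ring

/-- both fans -/
noncomputable def fans (N : ℕ) : Fin (N + N) → Cylinder E3 :=
  Fin.append (fun k : Fin N => fan1 N k) (fun k : Fin N => fan2 N k)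

theorem fans_cover (N : ℕ) (hN : 1000 ≤ N) : tet ⊆ ⋃ i, (fans N i).carrier := by
  rintro y ⟨h1, h2, h3, h4⟩
  have hw : |y 0 - y 1| ≤ 4 + y 2 := abs_le.2 ⟨by linarith, by linarith⟩
  have hz : |y 0 + y 1| ≤ 4 - y 2 := abs_le.2 ⟨by linarith, by linarith⟩
  have hN0 : 0 < N := by omega
  rw [Set.mem_iUnion]
  obtain ⟨k, hk, h | h⟩ := cover N hN _ _ _ hw hz
  · refine ⟨Fin.castAdd N ⟨k, hk⟩, ?_⟩
    rw [fans, Fin.append_left]
    exact mem_fan1 N k hN0 y h
  · refine ⟨Fin.natAdd N ⟨k, hk⟩, ?_⟩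
    rw [fans, Fin.append_right]
    exact mem_fan2 N k hN0 y h

theorem fans_area (N : ℕ) (hN : 10000 ≤ N) :
    totalArea (fans N) ≤ 16 * Real.sqrt 2 * (4999 / 5000) := by
  have hN0 : 0 < N := by omega
  have e : totalArea (fans N) = 16 * Real.sqrt 2 * ∑ k ∈ Finset.range N, term N k := by
    have a1 : ∀ i : Fin N, (fans N (Fin.castAdd N i)).area = 8 * Real.sqrt 2 * term N i := by
      intro i
      rw [fans, Fin.append_left]
      exact area_fan1 N i hN0
    have a2 : ∀ i : Fin N, (fans N (Fin.natAdd N i)).area = 8 * Real.sqrt 2 * term N i := by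
      intro i
      rw [fans, Fin.append_right]
      exact area_fan2 N i hN0
    rw [totalArea, Fin.sum_univ_add]
    simp only [a1, a2]
    rw [← Finset.mul_sum, Finset.sum_range]
    ring
  rw [e]
  exact mul_le_mul_of_nonneg_left (sum_le N hN) (by positivity)

end Vale.Agent.P243
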