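import Vale.Agent.Lib.P243.Abs.Shadow
import Vale.Agent.Lib.P243.Abs.Fan

/-!
# The half-area statement of Bang is false

The regular tetrahedron `tet` is covered by `2 N` cylinders (`N ≥ 10000`) whose total base area is at
most `0.4999 Amin tet`.
-/

open MeasureTheory
open scoped BigOperators ENNReal

namespace Vale.Agent.P243

theorem tet_body : IsConvexBody tet := ⟨tet_isCompact, tet_convex, tet_interior⟩

theorem Amin_tet_pos : 0 < Amin tet := lt_of_lt_of_le (by positivity) Amin_ge

theorem fans_total : totalArea (fans 10000) ≤ 4999 / 10000 * Amin tet := by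
  have h1 := fans_area 10000 le_rfl
  have h2 := Amin_ge
  linarith

theorem totalArea_nonneg {m : ℕ} (C : Fin m → Cylinder E3) : 0 ≤ totalArea C :=
  Finset.sum_nonneg fun _ _ => ENNReal.toReal_nonneg

theorem Amin_nonneg (K : Set E3) : 0 ≤ Amin K := by
  refine Real.sInf_nonneg ?_
  rintro a ⟨u, _, rfl⟩
  exact ENNReal.toReal_nonneg

theorem c3_le : c3 ≤ 4999 / 10000 := by
  refine le_trans (csInf_le ⟨0, ?_⟩ ⟨tet, tet_body, 10000 + 10000, fans 10000,
    fans_cover 10000 (by norm_num), rfl⟩) ?_
  · rintro R ⟨K, _, m, C, _, rfl⟩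
    exact div_nonneg (totalArea_nonneg C) (Amin_nonneg K)
  · rw [div_le_iff₀ Amin_tet_pos]
    exact fans_total

/-- the half-area inequality fails for the regular tetrahedron -/
theorem half_area_false : totalArea (fans 10000) < 1 / 2 * Amin tet := by
  have h1 := fans_total
  have h2 := Amin_tet_pos
  linarith

end Vale.Agent.P243
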