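import Vale.Agent.Lib.P243.Abs.Base

/-!
# The polynomial inequality

Notation `u = a²`, `v = b²`, `y = a b`.  For `h = 0`, `s = a`, `t = b` the coefficients are
`A = 1 + (1-u)(1+v)/100 - y/5`, `B = 1 + (1+u)(1-v)/100 + y/5`, `V = 1 + (1+u)(1+v)/100` and the
claim `A (1 + ee u) + B (1 + ee v) ≥ 2 V` is, after multiplication by `100` and with
`E(u) = 100 ee u = 2u + 2u² + 11u⁴/100`,
`2(u-v)² + (11/100)(u⁴+v⁴) - (y/5)(E(u)-E(v)) + (1/100)(E(u)(1-u)(1+v) + E(v)(1-v)(1+u)) ≥ 0`.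
Put `M = 2(1+u+v) + (11/100)(u³+u²v+uv²+v³)`, so `E(u) - E(v) = (u-v) M`; the left side is
`2((u-v) - yM/20)² + (1/100)[ 11(u⁴+v⁴) + E(u)(1-u)(1+v) + E(v)(1-v)(1+u) - uvM²/2 ]`
and the bracket is nonnegative for `u, v ∈ [0,1]`, because `M ≤ 2 + (111/50)(u+v)` and
`11(u⁴+v⁴) + 2(1+u)(1+v)(u-u²+v-v²) ≥ 2uv(1+(111/100)(u+v))²` on `[0,1]²`
(`poly_core`; at `u=v=1`: `22 ≥ 20.74`).

For `0 < h ≤ 1/1000`: `om h a = om 0 a + h²/10`; the term `h/2` in both `rho` contributes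
`(h/2)(A+B) ≥ 0.95 h` and the changes `s - a`, `t - b` cost at most
`h (|nu a * om b - nu b| rho a + |nu a + om a * nu b| rho b) ≤ 0.51 h`, the change of `om` costs
at most `h²` (crudely).
-/

namespace Vale.Agent.P243

private theorem Poly_cubic (s : ℝ) (hs : 0 ≤ s) :
    0 ≤ 50895 / 100000 * s ^ 3 - 161 / 100 * s ^ 2 + 1 / 2 * s + 2 := by
  nlinarith [mul_nonneg (by linarith : (0 : ℝ) ≤ s + 7 / 10) (sq_nonneg (s - 194 / 100))]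

theorem poly_core (u v : ℝ) (hu : 0 ≤ u) (hu' : u ≤ 1) (hv : 0 ≤ v) (hv' : v ≤ 1) :
    2 * (u * v) * (1 + 111 / 100 * (u + v)) ^ 2 ≤
      11 * (u ^ 4 + v ^ 4) + 2 * (1 + u) * (1 + v) * (u - u ^ 2 + v - v ^ 2) := by
  obtain ⟨s, hs⟩ : ∃ s, s = u + v := ⟨_, rfl⟩
  obtain ⟨q, hq⟩ : ∃ q, q = (u - v) ^ 2 / 4 := ⟨_, rfl⟩
  have hs0 : 0 ≤ s := by rw [hs]; linarith
  have hq0 : 0 ≤ q := by rw [hq]; positivity
  have hqs : q ≤ s ^ 2 / 4 := by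
    rw [hq, hs]
    nlinarith [mul_nonneg hu hv]
  have key : 11 * (u ^ 4 + v ^ 4) + 2 * (1 + u) * (1 + v) * (u - u ^ 2 + v - v ^ 2) -
      2 * (u * v) * (1 + 111 / 100 * (u + v)) ^ 2 =
      s * (50895 / 100000 * s ^ 3 - 161 / 100 * s ^ 2 + 1 / 2 * s + 2) +
        (354642 / 10000 * s ^ 2 - 156 / 100 * s - 2) * q + 26 * q ^ 2 := by
    rw [hs, hq]
    ring
  have hcub := Poly_cubic s hs0
  have hmain : 0 ≤ s * (50895 / 100000 * s ^ 3 - 161 / 100 * s ^ 2 + 1 / 2 * s + 2) +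
        (354642 / 10000 * s ^ 2 - 156 / 100 * s - 2) * q + 26 * q ^ 2 := by
    rcases le_total s (1 / 2) with h | h
    · have h1 : s ^ 2 ≤ 1 / 4 := by nlinarith
      have h2 : 1 ≤ 50895 / 100000 * s ^ 3 - 161 / 100 * s ^ 2 + 1 / 2 * s + 2 := by
        have h3 : 0 ≤ s ^ 3 := by positivity
        linarith
      have h4 : s * 1 ≤ s * (50895 / 100000 * s ^ 3 - 161 / 100 * s ^ 2 + 1 / 2 * s + 2) :=
        mul_le_mul_of_nonneg_left h2 hs0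
      have h5 : -3 * q ≤ (354642 / 10000 * s ^ 2 - 156 / 100 * s - 2) * q := by
        have h6 : -3 ≤ 354642 / 10000 * s ^ 2 - 156 / 100 * s - 2 := by
          have h61 := sq_nonneg s
          linarith
        exact mul_le_mul_of_nonneg_right h6 hq0
      have h7 : 3 * q ≤ s := by nlinarith
      have h8 : 0 ≤ 26 * q ^ 2 := by positivity
      linarith
    · have h1 : 0 ≤ 354642 / 10000 * s ^ 2 - 156 / 100 * s - 2 := by nlinarith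
      have h2 := mul_nonneg h1 hq0
      have h3 := mul_nonneg hs0 hcub
      have h8 : 0 ≤ 26 * q ^ 2 := by positivity
      exact add_nonneg (add_nonneg h3 h2) h8
  linarith

private theorem Poly_bracket (u v : ℝ) (hu : 0 ≤ u) (hu' : u ≤ 1) (hv : 0 ≤ v) (hv' : v ≤ 1) :
    0 ≤ 11 * (u ^ 4 + v ^ 4) + (2 * u * (1 + u) + 11 / 100 * u ^ 4) * (1 - u) * (1 + v) +
      (2 * v * (1 + v) + 11 / 100 * v ^ 4) * (1 - v) * (1 + u) -
      u * v * (2 * (1 + u + v) + 11 / 100 * (u ^ 3 + u ^ 2 * v + u * v ^ 2 + v ^ 3)) ^ 2 / 2 := by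
  have hc := poly_core u v hu hu' hv hv'
  have h1 : u ^ 3 + u ^ 2 * v + u * v ^ 2 + v ^ 3 ≤ 2 * (u + v) := by
    have e : u ^ 3 + u ^ 2 * v + u * v ^ 2 + v ^ 3 = (u + v) * (u ^ 2 + v ^ 2) := by ring
    rw [e]
    have h2 : u ^ 2 + v ^ 2 ≤ 2 := by nlinarith
    nlinarith
  have h0 : 0 ≤ u ^ 3 + u ^ 2 * v + u * v ^ 2 + v ^ 3 := by positivity
  set M := 2 * (1 + u + v) + 11 / 100 * (u ^ 3 + u ^ 2 * v + u * v ^ 2 + v ^ 3) with hM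
  have hM0 : 0 ≤ M := by rw [hM]; positivity
  have hM1 : M ≤ 2 * (1 + 111 / 100 * (u + v)) := by rw [hM]; linarith
  have hM2 : M ^ 2 ≤ (2 * (1 + 111 / 100 * (u + v))) ^ 2 := pow_le_pow_left₀ hM0 hM1 2
  have huv : 0 ≤ u * v := mul_nonneg hu hv
  have h3 : u * v * M ^ 2 / 2 ≤ 2 * (u * v) * (1 + 111 / 100 * (u + v)) ^ 2 := by
    have := mul_le_mul_of_nonneg_left hM2 huv
    nlinarith
  have h4 : 0 ≤ 11 / 100 * u ^ 4 * (1 - u) * (1 + v) := by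
    have : 0 ≤ 1 - u := by linarith
    positivity
  have h5 : 0 ≤ 11 / 100 * v ^ 4 * (1 - v) * (1 + u) := by
    have : 0 ≤ 1 - v := by linarith
    positivity
  nlinarith

/-- the case `h = 0`, `s = a`, `t = b` -/
theorem poly_zero (a b : ℝ) (ha : |a| ≤ 1) (hb : |b| ≤ 1) :
    2 * (1 + om 0 a * om 0 b) ≤
      (1 + om 0 a * om 0 b + a * (nu a * om 0 b - nu b)) * rho 0 a +
        (1 + om 0 a * om 0 b + b * (nu a + om 0 a * nu b)) * rho 0 b := by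
  have hu' : a ^ 2 ≤ 1 := by
    have := abs_le.1 ha
    nlinarith [this.1, this.2]
  have hv' : b ^ 2 ≤ 1 := by
    have := abs_le.1 hb
    nlinarith [this.1, this.2]
  have hB := Poly_bracket (a ^ 2) (b ^ 2) (sq_nonneg a) hu' (sq_nonneg b) hv'
  have hS : 0 ≤ (a ^ 2 - b ^ 2 - a * b * (2 * (1 + a ^ 2 + b ^ 2) + 11 / 100 * ((a ^ 2) ^ 3 +
      (a ^ 2) ^ 2 * b ^ 2 + a ^ 2 * (b ^ 2) ^ 2 + (b ^ 2) ^ 3)) / 20) ^ 2 := sq_nonneg _
  have key : (1 + om 0 a * om 0 b + a * (nu a * om 0 b - nu b)) * rho 0 a +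
        (1 + om 0 a * om 0 b + b * (nu a + om 0 a * nu b)) * rho 0 b -
        2 * (1 + om 0 a * om 0 b) =
      (1 / 50) * (a ^ 2 - b ^ 2 - a * b * (2 * (1 + a ^ 2 + b ^ 2) + 11 / 100 * ((a ^ 2) ^ 3 +
      (a ^ 2) ^ 2 * b ^ 2 + a ^ 2 * (b ^ 2) ^ 2 + (b ^ 2) ^ 3)) / 20) ^ 2 +
      (1 / 10000) * (11 * ((a ^ 2) ^ 4 + (b ^ 2) ^ 4) +
      (2 * a ^ 2 * (1 + a ^ 2) + 11 / 100 * (a ^ 2) ^ 4) * (1 - a ^ 2) * (1 + b ^ 2) +
      (2 * b ^ 2 * (1 + b ^ 2) + 11 / 100 * (b ^ 2) ^ 4) * (1 - b ^ 2) * (1 + a ^ 2) -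
      a ^ 2 * b ^ 2 * (2 * (1 + a ^ 2 + b ^ 2) + 11 / 100 * ((a ^ 2) ^ 3 +
      (a ^ 2) ^ 2 * b ^ 2 + a ^ 2 * (b ^ 2) ^ 2 + (b ^ 2) ^ 3)) ^ 2 / 2) := by
    unfold om rho nu ee
    ring
  linarith

private theorem Poly_om (h m : ℝ) (hh : 0 < h) (hh' : h ≤ 1 / 1000) (hm : |m| ≤ 1) :
    -(1 / 5) ≤ om h m ∧ om h m ≤ 0 := by
  have h1 := abs_le.1 hm
  have h2 : m ^ 2 ≤ 1 := by nlinarith [h1.1, h1.2]
  have h3 : 0 ≤ m ^ 2 := sq_nonneg m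
  have h4 : h ^ 2 ≤ 1 := by nlinarith
  have h5 : 0 ≤ h ^ 2 := sq_nonneg h
  unfold om
  constructor <;> linarith

private theorem Poly_nu (m : ℝ) (hm : |m| ≤ 1) : |nu m| ≤ 1 / 5 := by
  unfold nu
  rw [abs_div, abs_of_pos (by norm_num : (0 : ℝ) < 5)]
  linarith

private theorem Poly_c1 (h a b : ℝ) (hh : 0 < h) (hh' : h ≤ 1 / 1000) (ha : |a| ≤ 1)
    (hb : |b| ≤ 1) : |nu a * om h b - nu b| ≤ 6 / 25 := by
  have h1 := Poly_nu a ha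
  have h2 := Poly_nu b hb
  have h3 := Poly_om h b hh hh' hb
  have h4 : |om h b| ≤ 1 / 5 := abs_le.2 ⟨h3.1, by linarith [h3.2]⟩
  have h5 : |nu a * om h b| ≤ 1 / 5 * (1 / 5) := by
    rw [abs_mul]
    exact mul_le_mul h1 h4 (abs_nonneg _) (by norm_num)
  calc |nu a * om h b - nu b| ≤ |nu a * om h b| + |nu b| := abs_sub _ _
    _ ≤ 6 / 25 := by linarith

private theorem Poly_c2 (h a b : ℝ) (hh : 0 < h) (hh' : h ≤ 1 / 1000) (ha : |a| ≤ 1)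
    (hb : |b| ≤ 1) : |nu a + om h a * nu b| ≤ 6 / 25 := by
  have h1 := Poly_nu a ha
  have h2 := Poly_nu b hb
  have h3 := Poly_om h a hh hh' ha
  have h4 : |om h a| ≤ 1 / 5 := abs_le.2 ⟨h3.1, by linarith [h3.2]⟩
  have h5 : |om h a * nu b| ≤ 1 / 5 * (1 / 5) := by
    rw [abs_mul]
    exact mul_le_mul h4 h2 (abs_nonneg _) (by norm_num)
  calc |nu a + om h a * nu b| ≤ |nu a| + |om h a * nu b| := abs_add_le _ _
    _ ≤ 6 / 25 := by linarith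

private theorem Poly_prod {x y c d : ℝ} (hx : |x| ≤ c) (hy : |y| ≤ d) (hc : 0 ≤ c) :
    -(c * d) ≤ x * y := by
  have h1 : |x * y| ≤ c * d := by
    rw [abs_mul]
    exact mul_le_mul hx hy (abs_nonneg _) hc
  exact (abs_le.1 h1).1

private theorem Poly_rho (a : ℝ) (ha : |a| ≤ 1) : 1 ≤ rho 0 a ∧ rho 0 a ≤ 21 / 20 := by
  have h1 := abs_le.1 ha
  have h2 : a ^ 2 ≤ 1 := by nlinarith [h1.1, h1.2]
  have h3 : 0 ≤ a ^ 2 := sq_nonneg a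
  have h4 : (a ^ 2) ^ 2 ≤ 1 := pow_le_one₀ h3 h2
  have h5 : (a ^ 2) ^ 4 ≤ 1 := pow_le_one₀ h3 h2
  have h6 : 0 ≤ (a ^ 2) ^ 2 := by positivity
  have h7 : 0 ≤ (a ^ 2) ^ 4 := by positivity
  unfold rho ee
  constructor <;> linarith

private theorem Poly_xb (h D p n : ℝ) (hh3 : h ^ 2 ≤ h / 1000) (hD : D ≤ h ^ 2 / 25)
    (hh : 0 < h) (hp : -(h * (6 / 25)) ≤ p) (hn : 0 ≤ n) : -(h / 4) ≤ -D + p + n := by
  linarith

private theorem Poly_comb (h D V A0 B0 Xa Xb ra rb : ℝ) (hh : 0 < h) (hh3 : h ^ 2 ≤ h / 1000)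
    (hD : 0 ≤ D) (hz : 2 * V ≤ A0 * ra + B0 * rb) (hAB : 2 ≤ A0 + B0)
    (hXa : -(h / 4) ≤ Xa) (hXb : -(h / 4) ≤ Xb) (ra1 : 0 ≤ ra) (ra2 : ra ≤ 21 / 20)
    (rb1 : 0 ≤ rb) (rb2 : rb ≤ 21 / 20) :
    2 * (V - D) ≤ (A0 + Xa) * (ra + h / 2) + (B0 + Xb) * (rb + h / 2) := by
  have q1 : -(h / 4 * (21 / 20)) ≤ Xa * ra := by
    have k1 : -(h / 4) * ra ≤ Xa * ra := mul_le_mul_of_nonneg_right hXa ra1
    have k2 : h / 4 * ra ≤ h / 4 * (21 / 20) := mul_le_mul_of_nonneg_left ra2 (by linarith)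
    linarith
  have q2 : -(h / 4 * (21 / 20)) ≤ Xb * rb := by
    have k1 : -(h / 4) * rb ≤ Xb * rb := mul_le_mul_of_nonneg_right hXb rb1
    have k2 : h / 4 * rb ≤ h / 4 * (21 / 20) := mul_le_mul_of_nonneg_left rb2 (by linarith)
    linarith
  have q3 : h / 2 * 2 ≤ h / 2 * (A0 + B0) := mul_le_mul_of_nonneg_left hAB (by linarith)
  have q4 : h / 2 * (-(h / 2)) ≤ h / 2 * (Xa + Xb) :=
    mul_le_mul_of_nonneg_left (by linarith) (by linarith)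
  have e1 : (A0 + Xa) * (ra + h / 2) + (B0 + Xb) * (rb + h / 2) =
      (A0 * ra + B0 * rb) + Xa * ra + Xb * rb + h / 2 * (A0 + B0) + h / 2 * (Xa + Xb) := by
    ring
  have e2 : h / 2 * (-(h / 2)) = -(h ^ 2 / 4) := by ring
  rw [e1]
  rw [e2] at q4
  linarith

private theorem Poly_d (h u v : ℝ) (hh : 0 ≤ h ^ 2) (h1 : h ^ 2 ≤ 1) (hu : 0 ≤ u) (hu' : u ≤ 1)
    (hv : 0 ≤ v) (hv' : v ≤ 1) :
    0 ≤ h ^ 2 / 100 * (2 + u + v - h ^ 2) ∧ h ^ 2 / 100 * (2 + u + v - h ^ 2) ≤ h ^ 2 / 25 := by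
  have h0 : 0 ≤ h ^ 2 / 100 := by positivity
  constructor
  · exact mul_nonneg h0 (by linarith)
  · have : h ^ 2 / 100 * (2 + u + v - h ^ 2) ≤ h ^ 2 / 100 * 4 :=
      mul_le_mul_of_nonneg_left (by linarith) h0
    linarith

private theorem Poly_sq (a : ℝ) (ha : |a| ≤ 1) : a ^ 2 ≤ 1 := by
  have := abs_le.1 ha
  nlinarith [this.1, this.2]

private theorem Poly_eW (h a b : ℝ) :
    1 + om h a * om h b = (1 + om 0 a * om 0 b) - h ^ 2 / 100 * (2 + a ^ 2 + b ^ 2 - h ^ 2) := by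
  unfold om
  ring

private theorem Poly_eA (h a b s : ℝ) :
    1 + om h a * om h b + s * (nu a * om h b - nu b) =
      (1 + om 0 a * om 0 b + a * (nu a * om 0 b - nu b)) +
        (-(h ^ 2 / 100 * (2 + a ^ 2 + b ^ 2 - h ^ 2)) + (s - a) * (nu a * om h b - nu b) +
          a ^ 2 * h ^ 2 / 50) := by
  unfold om nu
  ring

private theorem Poly_eB (h a b t : ℝ) :
    1 + om h a * om h b + t * (nu a + om h a * nu b) =
      (1 + om 0 a * om 0 b + b * (nu a + om 0 a * nu b)) +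
        (-(h ^ 2 / 100 * (2 + a ^ 2 + b ^ 2 - h ^ 2)) + (t - b) * (nu a + om h a * nu b) +
          b ^ 2 * h ^ 2 / 50) := by
  unfold om nu
  ring

private theorem Poly_AB (a b : ℝ) (hu : a ^ 2 ≤ 1) (hv : b ^ 2 ≤ 1) :
    2 ≤ (1 + om 0 a * om 0 b + a * (nu a * om 0 b - nu b)) +
      (1 + om 0 a * om 0 b + b * (nu a + om 0 a * nu b)) := by
  have e : (1 + om 0 a * om 0 b + a * (nu a * om 0 b - nu b)) +
      (1 + om 0 a * om 0 b + b * (nu a + om 0 a * nu b)) =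
      2 + (2 - 2 * (a ^ 2 * b ^ 2)) / 100 := by
    unfold om nu
    ring
  have h1 : a ^ 2 * b ^ 2 ≤ 1 := mul_le_one₀ hu (sq_nonneg b) hv
  rw [e]
  linarith

theorem poly_main (h a b s t : ℝ) (hh : 0 < h) (hh' : h ≤ 1 / 1000) (ha : |a| ≤ 1) (hb : |b| ≤ 1)
    (hs : |s - a| ≤ h) (ht : |t - b| ≤ h) :
    2 * (1 + om h a * om h b) ≤
      (1 + om h a * om h b + s * (nu a * om h b - nu b)) * rho h a +
        (1 + om h a * om h b + t * (nu a + om h a * nu b)) * rho h b := by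
  have hz := poly_zero a b ha hb
  have p1 := Poly_prod hs (Poly_c1 h a b hh hh' ha hb) hh.le
  have p2 := Poly_prod ht (Poly_c2 h a b hh hh' ha hb) hh.le
  obtain ⟨ra1, ra2⟩ := Poly_rho a ha
  obtain ⟨rb1, rb2⟩ := Poly_rho b hb
  have hu' := Poly_sq a ha
  have hv' := Poly_sq b hb
  have hh2 : 0 ≤ h ^ 2 := sq_nonneg h
  have hh3 : h ^ 2 ≤ h / 1000 := by nlinarith
  have hD := Poly_d h (a ^ 2) (b ^ 2) hh2 (by linarith) (sq_nonneg a) hu' (sq_nonneg b) hv'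
  have hAB := Poly_AB a b hu' hv'
  have hr : ∀ m, rho h m = rho 0 m + h / 2 := by
    intro m
    unfold rho
    ring
  have n1 : 0 ≤ a ^ 2 * h ^ 2 / 50 := by positivity
  have n2 : 0 ≤ b ^ 2 * h ^ 2 / 50 := by positivity
  have hXa := Poly_xb h _ _ _ hh3 hD.2 hh p1 n1
  have hXb := Poly_xb h _ _ _ hh3 hD.2 hh p2 n2
  rw [Poly_eA, Poly_eB, hr, hr, Poly_eW]
  exact Poly_comb h _ _ _ _ _ _ _ _ hh hh3 hD.1 hz hAB hXa hXb (by linarith) ra2 (by linarith) rb2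

/-- positivity of the two coefficients -/
theorem coef_pos (h a b s t : ℝ) (hh : 0 < h) (hh' : h ≤ 1 / 1000) (ha : |a| ≤ 1) (hb : |b| ≤ 1)
    (hs : |s| ≤ 1) (ht : |t| ≤ 1) :
    0 < 1 + om h a * om h b + s * (nu a * om h b - nu b) ∧
      0 < 1 + om h a * om h b + t * (nu a + om h a * nu b) := by
  have hc1 := Poly_c1 h a b hh hh' ha hb
  have hc2 := Poly_c2 h a b hh hh' ha hb
  have p1 := Poly_prod hs hc1 (by norm_num)
  have p2 := Poly_prod ht hc2 (by norm_num)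
  obtain ⟨-, x1⟩ := Poly_om h a hh hh' ha
  obtain ⟨-, x2⟩ := Poly_om h b hh hh' hb
  have h1 : 0 ≤ om h a * om h b := mul_nonneg_of_nonpos_of_nonpos x1 x2
  constructor
  · linarith
  · linarith

end Vale.Agent.P243
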