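import Vale.Agent.Lib.P243.Abs.Area
import Vale.Agent.Lib.P243.Abs.Image

/-!
# All shadows of the regular tetrahedron have area at least `32 √2`
-/

open MeasureTheory
open scoped BigOperators ENNReal

namespace Vale.Agent.P243

theorem shadow_sum_sq (u : E3) (hu : ‖u‖ = 1) : u 0 ^ 2 + u 1 ^ 2 + u 2 ^ 2 = 1 := by
  have h : ‖u‖ ^ 2 = 1 := by rw [hu]; norm_num
  rw [EuclideanSpace.norm_sq_eq, Fin.sum_univ_three] at h
  simpa using h

/-- general reduction -/
theorem shadow_ge_of (u : E3) (hu : ‖u‖ = 1) (a b : Fin 3 → ℝ) (hL : rowMap a b u = 0)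
    (hker : ∀ x, rowMap a b x = 0 → ∃ c : ℝ, x = c • u)
    (hsurj : Function.Surjective (rowMap a b)) (t : ℝ) (ht : t ≠ 0) (hg : gram a b = t ^ 2)
    (hv : 32 * Real.sqrt 2 * |t| ≤ (volume (rowMap a b '' tet)).toReal) :
    32 * Real.sqrt 2 ≤ shadow u tet := by
  have hu0 : u ≠ 0 := by
    intro h
    rw [h, norm_zero] at hu
    exact zero_ne_one hu
  have h := shadow_rowMap a b u hu0 hL hker hsurj tet tet_isCompact
  rw [hu, inv_one, one_smul] at h
  rw [h, hg, Real.sqrt_sq_eq_abs, le_div_iff₀ (abs_pos.2 ht)]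
  exact hv

theorem tet_swap01 (y : E3) (hy : y ∈ tet) : (!₂[y 1, y 0, y 2] : E3) ∈ tet := by
  obtain ⟨h1, h2, h3, h4⟩ := hy
  refine ⟨?_, ?_, ?_, ?_⟩ <;> simp <;> linarith

theorem tet_rot (y : E3) (hy : y ∈ tet) : (!₂[y 2, y 0, y 1] : E3) ∈ tet := by
  obtain ⟨h1, h2, h3, h4⟩ := hy
  refine ⟨?_, ?_, ?_, ?_⟩ <;> simp <;> linarith

theorem tet_rot' (y : E3) (hy : y ∈ tet) : (!₂[y 1, y 2, y 0] : E3) ∈ tet := by
  obtain ⟨h1, h2, h3, h4⟩ := hy
  refine ⟨?_, ?_, ?_, ?_⟩ <;> simp <;> linarith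

theorem shadow_case0 (u : E3) (hu : ‖u‖ = 1) (h1 : |u 1| ≤ |u 0|) (h2 : |u 2| ≤ |u 0|) :
    32 * Real.sqrt 2 ≤ shadow u tet := by
  have hs := shadow_sum_sq u hu
  have hu0 : u 0 ≠ 0 := by
    intro h
    rw [h, abs_zero] at h1 h2
    have h3 : u 1 = 0 := abs_nonpos_iff.1 h1
    have h4 : u 2 = 0 := abs_nonpos_iff.1 h2
    rw [h, h3, h4] at hs
    norm_num at hs
  refine shadow_ge_of u hu ![-u 1, u 0, 0] ![-u 2, 0, u 0] ?_ ?_ ?_ (u 0) hu0 ?_ ?_
  · rw [rowMap_apply]
    funext i
    fin_cases i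
    · simp; ring
    · simp; ring
  · intro x hx
    rw [rowMap_apply] at hx
    have e0 := congrFun hx 0
    have e1 := congrFun hx 1
    simp at e0 e1
    refine ⟨x 0 / u 0, ?_⟩
    ext i
    fin_cases i
    · simp
      field_simp
    · simp
      field_simp
      linarith
    · simp
      field_simp
      linarith
  · intro z
    refine ⟨!₂[0, z 0 / u 0, z 1 / u 0], ?_⟩
    rw [rowMap_apply]
    funext i
    fin_cases i
    · simp
      field_simp
    · simp
      field_simp
  · simp only [gram, Matrix.cons_val_zero, Matrix.cons_val_one, Matrix.cons_val]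
    have e : u 1 ^ 2 = 1 - u 0 ^ 2 - u 2 ^ 2 := by linarith
    linear_combination (u 0 ^ 2) * hs
  · exact image_ge (u 0) (u 1) (u 2) h1 h2 hs

theorem shadow_case1 (u : E3) (hu : ‖u‖ = 1) (h1 : |u 0| ≤ |u 1|) (h2 : |u 2| ≤ |u 1|) :
    32 * Real.sqrt 2 ≤ shadow u tet := by
  have hs := shadow_sum_sq u hu
  have hu0 : u 1 ≠ 0 := by
    intro h
    rw [h, abs_zero] at h1 h2
    have h3 : u 0 = 0 := abs_nonpos_iff.1 h1
    have h4 : u 2 = 0 := abs_nonpos_iff.1 h2
    rw [h, h3, h4] at hs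
    norm_num at hs
  refine shadow_ge_of u hu ![u 1, -u 0, 0] ![0, -u 2, u 1] ?_ ?_ ?_ (u 1) hu0 ?_ ?_
  · rw [rowMap_apply]
    funext i
    fin_cases i
    · simp; ring
    · simp; ring
  · intro x hx
    rw [rowMap_apply] at hx
    have e0 := congrFun hx 0
    have e1 := congrFun hx 1
    simp at e0 e1
    refine ⟨x 1 / u 1, ?_⟩
    ext i
    fin_cases i
    · simp
      field_simp
      linarith
    · simp
      field_simp
    · simp
      field_simp
      linarith
  · intro z
    refine ⟨!₂[z 0 / u 1, 0, z 1 / u 1], ?_⟩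
    rw [rowMap_apply]
    funext i
    fin_cases i
    · simp
      field_simp
    · simp
      field_simp
  · simp only [gram, Matrix.cons_val_zero, Matrix.cons_val_one, Matrix.cons_val]
    linear_combination (u 1 ^ 2) * hs
  · have h := image_ge (u 1) (u 0) (u 2) h1 h2 (by linarith)
    have e : rowMap ![u 1, -u 0, 0] ![0, -u 2, u 1] '' tet = shMap (u 1) (u 0) (u 2) '' tet := by
      apply Set.Subset.antisymm
      · rintro _ ⟨y, hy, rfl⟩
        refine ⟨!₂[y 1, y 0, y 2], tet_swap01 y hy, ?_⟩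
        rw [shMap, rowMap_apply, rowMap_apply]
        funext i
        fin_cases i
        · simp; ring
        · simp
      · rintro _ ⟨y, hy, rfl⟩
        refine ⟨!₂[y 1, y 0, y 2], tet_swap01 y hy, ?_⟩
        rw [shMap, rowMap_apply, rowMap_apply]
        funext i
        fin_cases i
        · simp; ring
        · simp
    rw [e]
    exact h

theorem shadow_case2 (u : E3) (hu : ‖u‖ = 1) (h1 : |u 0| ≤ |u 2|) (h2 : |u 1| ≤ |u 2|) :
    32 * Real.sqrt 2 ≤ shadow u tet := by
  have hs := shadow_sum_sq u hu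
  have hu0 : u 2 ≠ 0 := by
    intro h
    rw [h, abs_zero] at h1 h2
    have h3 : u 0 = 0 := abs_nonpos_iff.1 h1
    have h4 : u 1 = 0 := abs_nonpos_iff.1 h2
    rw [h, h3, h4] at hs
    norm_num at hs
  refine shadow_ge_of u hu ![u 2, 0, -u 0] ![0, u 2, -u 1] ?_ ?_ ?_ (u 2) hu0 ?_ ?_
  · rw [rowMap_apply]
    funext i
    fin_cases i
    · simp; ring
    · simp; ring
  · intro x hx
    rw [rowMap_apply] at hx
    have e0 := congrFun hx 0
    have e1 := congrFun hx 1
    simp at e0 e1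
    refine ⟨x 2 / u 2, ?_⟩
    ext i
    fin_cases i
    · simp
      field_simp
      linarith
    · simp
      field_simp
      linarith
    · simp
      field_simp
  · intro z
    refine ⟨!₂[z 0 / u 2, z 1 / u 2, 0], ?_⟩
    rw [rowMap_apply]
    funext i
    fin_cases i
    · simp
      field_simp
    · simp
      field_simp
  · simp only [gram, Matrix.cons_val_zero, Matrix.cons_val_one, Matrix.cons_val]
    linear_combination (u 2 ^ 2) * hs
  · have h := image_ge (u 2) (u 0) (u 1) h1 h2 (by linarith)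
    have e : rowMap ![u 2, 0, -u 0] ![0, u 2, -u 1] '' tet = shMap (u 2) (u 0) (u 1) '' tet := by
      apply Set.Subset.antisymm
      · rintro _ ⟨y, hy, rfl⟩
        refine ⟨!₂[y 2, y 0, y 1], tet_rot y hy, ?_⟩
        rw [shMap, rowMap_apply, rowMap_apply]
        funext i
        fin_cases i
        · simp; ring
        · simp; ring
      · rintro _ ⟨y, hy, rfl⟩
        refine ⟨!₂[y 1, y 2, y 0], tet_rot' y hy, ?_⟩
        rw [shMap, rowMap_apply, rowMap_apply]
        funext i
        fin_cases i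
        · simp; ring
        · simp; ring
    rw [e]
    exact h

theorem shadow_ge (u : E3) (hu : ‖u‖ = 1) : 32 * Real.sqrt 2 ≤ shadow u tet := by
  rcases le_total |u 0| |u 1| with h | h
  · rcases le_total |u 1| |u 2| with h' | h'
    · exact shadow_case2 u hu (h.trans h') h'
    · exact shadow_case1 u hu h h'
  · rcases le_total |u 0| |u 2| with h' | h'
    · exact shadow_case2 u hu h' (h.trans h')
    · exact shadow_case0 u hu h h'

theorem Amin_ge : 32 * Real.sqrt 2 ≤ Amin tet := by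
  refine le_csInf ?_ ?_
  · refine ⟨_, EuclideanSpace.single 0 1, by simp, rfl⟩
  · rintro a ⟨u, hu, rfl⟩
    exact shadow_ge u hu

end Vale.Agent.P243
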